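import Claimed.Agent.R254.Loc.Defs

/-!
# Row 254, END254-A: from `LocEst` near every point of `K` to `LOC φ K`      (architect helper31)

Measure theoretic reductions; no oscillation.  Leaves (Mathlib only):
* **LC-G1** `lc_ext_eq` (`integral_withDensity_eq_integral_toReal_smul`, `integral_indicator`; `⟪!₂[a,b], y⟫ = a y₀ + b y₁`), `lc_split_ball`.
* **LC-G2** `lc_split_mp`, `lc_split_emb` (`lcSplit` is a measurable equivalence: `EuclideanSpace.volume_preserving_measurableEquiv`/`PiLp.volume_preserving_toLp`, `MeasureTheory.volume_preserving_piFinSuccAbove (fun _ => ℝ) 2`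
  or `MeasurableEquiv.piFinSuccAbove`, `measurePreserving_finTwoArrow`, …).
* **LC-G3** `lc_F_bound` (`w = lcW φ` continuous, `1 ≤ w ≤ Cw` on `K`; `∫⁻ ‖1_K w f‖³ = ∫⁻_K w³ ‖f‖³ ≤ Cw² ∫⁻ ‖f‖³ dμ`; measurability: `aestronglyMeasurable_withDensity_iff`; `L³ ⊆ L¹` on the finite measure `vol|_K`).
* **LC-G4** `lc_junk` (`f` not a.e. strongly measurable ⟹ the integrand is not integrable ⟹ the Bochner integral is `0`).
* **LC-G5** `lc_T_aesm` (continuity of `lcT φ F` for integrable `F`: `continuous_of_dominated`), `lc_T_add`.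
* **LC-G6** `LocEst.mono`, `LocEst.union`, `LocEst.empty`, `lc_glob` (`IsCompact.elim_nhds_subcover`, induction on the finite cover).
-/

set_option autoImplicit false

namespace Claimed.Agent.R254.Loc

open MeasureTheory Claims.C0422 Claimed.Agent.R255.Osc
open scoped ContDiff InnerProductSpace

variable {φ : E2 → ℝ} {K S S' : Set E2}

theorem lc_W_continuous (hφ : Continuous (fderiv ℝ φ)) : Continuous (lcW φ) := by
  unfold lcW
  fun_prop

theorem lc_W_pos (φ : E2 → ℝ) (y : E2) : 1 ≤ lcW φ y := by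
  unfold lcW
  rw [Real.one_le_sqrt]
  have : 0 ≤ ‖fderiv ℝ φ y‖ ^ 2 := by positivity
  linarith

theorem lc_inner_two (a b : ℝ) (y : E2) : ⟪(!₂[a, b] : E2), y⟫_ℝ = a * y 0 + b * y 1 := by
  simp [PiLp.inner_apply, Fin.sum_univ_two]
  ring

/-- **LC-G1** -/
theorem lc_ext_eq (hφ : Continuous (fderiv ℝ φ)) (hK : MeasurableSet K) (f : E2 → ℂ) (x : E3) :
    graphExtension φ K f x = lcT φ (lcF φ K f) (lcSplit x) := by
  have hW := lc_W_continuous hφ
  unfold graphExtension graphSurfaceMeasure lcT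
  rw [integral_withDensity_eq_integral_toReal_smul
    (by exact (ENNReal.measurable_ofReal.comp hW.measurable))
    (Filter.Eventually.of_forall fun y => ENNReal.ofReal_lt_top)]
  rw [← integral_indicator hK]
  congr 1
  funext y
  by_cases hy : y ∈ K
  · have h0 : 0 ≤ Real.sqrt (1 + ‖fderiv ℝ φ y‖ ^ 2) := Real.sqrt_nonneg _
    simp only [Set.indicator_of_mem hy, lcF, lcSplit, lc_inner_two, ENNReal.toReal_ofReal h0, lcW,
      Complex.real_smul]
    ring
  · simp [Set.indicator_of_notMem hy, lcF]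

theorem lc_split_ball {R : ℝ} {x : E3} (hx : x ∈ Metric.ball (0 : E3) R) : lcSplit x ∈ lcBox R := by
  rw [mem_ball_zero_iff, EuclideanSpace.norm_eq, Fin.sum_univ_three] at hx
  simp only [Real.norm_eq_abs, sq_abs] at hx
  have hR : 0 < R := lt_of_le_of_lt (Real.sqrt_nonneg _) hx
  have h1 : x 0 ^ 2 + x 1 ^ 2 + x 2 ^ 2 < R ^ 2 := by
    rw [Real.sqrt_lt' hR] at hx; exact hx
  refine ⟨?_, ?_⟩
  · show x 2 ∈ Set.Icc (-R) R
    rw [Set.mem_Icc, ← abs_le]
    apply abs_le_of_sq_le_sq _ hR.le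
    nlinarith [sq_nonneg (x 0), sq_nonneg (x 1)]
  · show (!₂[x 0, x 1] : E2) ∈ Metric.closedBall 0 R
    rw [mem_closedBall_zero_iff, EuclideanSpace.norm_eq, Fin.sum_univ_two]
    simp only [Real.norm_eq_abs, sq_abs]
    apply Real.sqrt_le_iff.2 ⟨hR.le, ?_⟩
    simp
    nlinarith [sq_nonneg (x 2)]

/-- `lcSplit` as a measurable equivalence. -/
noncomputable def lcSplitE : E3 ≃ᵐ ℝ × E2 :=
  (MeasurableEquiv.toLp 2 (Fin 3 → ℝ)).symm.trans
    ((MeasurableEquiv.piFinSuccAbove (fun _ => ℝ) 2).trans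
      (MeasurableEquiv.prodCongr (MeasurableEquiv.refl ℝ) (MeasurableEquiv.toLp 2 (Fin 2 → ℝ))))

theorem lcSplitE_apply (x : E3) : lcSplitE x = lcSplit x := by
  unfold lcSplitE lcSplit
  refine Prod.ext rfl ?_
  ext i
  fin_cases i <;> rfl

/-- **LC-G2** -/
theorem lc_split_mp : MeasurePreserving lcSplit (volume : Measure E3) (volume : Measure (ℝ × E2)) := by
  have h1 := EuclideanSpace.volume_preserving_symm_measurableEquiv_toLp (Fin 3)
  have h2 := volume_preserving_piFinSuccAbove (fun _ : Fin 3 => ℝ) 2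
  have h3 := (MeasurePreserving.id (volume : Measure ℝ)).prod
    (EuclideanSpace.volume_preserving_symm_measurableEquiv_toLp (Fin 2)).symm
  have h := (h3.comp (h2.comp h1))
  have e : lcSplit = (Prod.map id (MeasurableEquiv.toLp 2 (Fin 2 → ℝ))) ∘
      ((MeasurableEquiv.piFinSuccAbove (fun _ : Fin 3 => ℝ) 2) ∘ (MeasurableEquiv.toLp 2 (Fin 3 → ℝ)).symm) := by
    funext x
    exact (lcSplitE_apply x).symm
  rw [e]
  exact h

theorem lc_split_emb : MeasurableEmbedding lcSplit := by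
  have e : lcSplit = lcSplitE := by funext x; exact (lcSplitE_apply x).symm
  rw [e]
  exact lcSplitE.measurableEmbedding

/-- **LC-G3** -/
theorem lc_F_bound (hφ : Continuous (fderiv ℝ φ)) (hK : IsCompact K) : ∃ Cw : ℝ, 0 ≤ Cw ∧
    ∀ f : E2 → ℂ, MemLp f 3 (graphSurfaceMeasure φ K) →
      MemLp (lcF φ K f) 3 volume ∧ Integrable (lcF φ K f) volume ∧
      eLpNorm (lcF φ K f) 3 volume ≤ ENNReal.ofReal Cw * eLpNorm f 3 (graphSurfaceMeasure φ K) := by
  have hW := lc_W_continuous hφ
  have hKm : MeasurableSet K := hK.measurableSet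
  obtain ⟨M, hM⟩ := hK.exists_bound_of_continuousOn hW.continuousOn
  have hM' : ∀ y ∈ K, lcW φ y ≤ max M 0 := fun y hy =>
    ((le_abs_self _).trans (hM y hy)).trans (le_max_left _ _)
  refine ⟨max M 0, le_max_right _ _, fun f hf => ?_⟩
  set g : E2 → ℂ := fun y => (lcW φ y : ℂ) * f y with hg
  have hμ : graphSurfaceMeasure φ K
      = (volume.restrict K).withDensity (fun y => ((Real.toNNReal (lcW φ y) : NNReal) : ENNReal)) := rfl
  have hmeasN : Measurable fun y => Real.toNNReal (lcW φ y) := hW.measurable.real_toNNReal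
  -- measurability
  have hgm : AEStronglyMeasurable g (volume.restrict K) := by
    have h1 := hf.1
    rw [hμ, aestronglyMeasurable_withDensity_iff hmeasN] at h1
    refine h1.congr (Filter.Eventually.of_forall fun y => ?_)
    have h0 : 0 ≤ lcW φ y := zero_le_one.trans (lc_W_pos φ y)
    simp only [Real.coe_toNNReal _ h0, hg, Complex.real_smul]
  -- the norm
  have hnorm : eLpNorm g 3 (volume.restrict K)
      ≤ ENNReal.ofReal (max M 0) * eLpNorm f 3 (graphSurfaceMeasure φ K) := by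
    have h3 : (3 : ENNReal) ≠ 0 := by norm_num
    have h3' : (3 : ENNReal) ≠ ⊤ := by norm_num
    rw [eLpNorm_eq_lintegral_rpow_enorm_toReal h3 h3', eLpNorm_eq_lintegral_rpow_enorm_toReal h3 h3']
    have e3 : (3 : ENNReal).toReal = 3 := by norm_num
    rw [e3, hμ, lintegral_withDensity_eq_lintegral_mul_non_measurable _ hmeasN.coe_nnreal_ennreal
      (Filter.Eventually.of_forall fun y => ENNReal.coe_lt_top)]
    have hle : ∫⁻ y in K, ‖g y‖ₑ ^ (3 : ℝ)
        ≤ ENNReal.ofReal (max M 0) ^ (3 : ℝ) *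
          ∫⁻ y in K, ((fun y => ((Real.toNNReal (lcW φ y) : NNReal) : ENNReal)) * fun y => ‖f y‖ₑ ^ (3 : ℝ)) y := by
      rw [← lintegral_const_mul']
      · refine setLIntegral_mono' hKm fun y hy => ?_
        have h0 : 0 ≤ lcW φ y := zero_le_one.trans (lc_W_pos φ y)
        have a1 : ‖g y‖ₑ = ENNReal.ofReal (lcW φ y) * ‖f y‖ₑ := by
          rw [hg, enorm_mul]
          congr 1
          rw [← ofReal_norm, Complex.norm_real, Real.norm_of_nonneg h0]
        have a2 : ENNReal.ofReal (lcW φ y) ≤ ENNReal.ofReal (max M 0) := ENNReal.ofReal_le_ofReal (hM' y hy)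
        have a3 : (1 : ENNReal) ≤ ((Real.toNNReal (lcW φ y) : NNReal) : ENNReal) := by
          show 1 ≤ ENNReal.ofReal (lcW φ y)
          rw [← ENNReal.ofReal_one]
          exact ENNReal.ofReal_le_ofReal (lc_W_pos φ y)
        rw [a1, ENNReal.mul_rpow_of_nonneg _ _ (by norm_num), Pi.mul_apply]
        calc ENNReal.ofReal (lcW φ y) ^ (3 : ℝ) * ‖f y‖ₑ ^ (3 : ℝ)
            ≤ ENNReal.ofReal (max M 0) ^ (3 : ℝ) * (1 * ‖f y‖ₑ ^ (3 : ℝ)) := by
              rw [one_mul]; gcongr
          _ ≤ _ := by gcongr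
      · exact ENNReal.rpow_ne_top_of_nonneg (by norm_num) ENNReal.ofReal_ne_top
    calc (∫⁻ y in K, ‖g y‖ₑ ^ (3 : ℝ)) ^ (1 / (3 : ℝ)) ≤ _ := ENNReal.rpow_le_rpow hle (by norm_num)
      _ = _ := by
        rw [ENNReal.mul_rpow_of_nonneg _ _ (by norm_num), ← ENNReal.rpow_mul]
        norm_num
  have hgL : MemLp g 3 (volume.restrict K) :=
    ⟨hgm, lt_of_le_of_lt hnorm (ENNReal.mul_lt_top ENNReal.ofReal_lt_top hf.2)⟩
  have hFe : eLpNorm (lcF φ K f) 3 volume = eLpNorm g 3 (volume.restrict K) :=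
    eLpNorm_indicator_eq_eLpNorm_restrict hKm
  have : IsFiniteMeasure (volume.restrict K) := ⟨by simpa using hK.measure_lt_top⟩
  refine ⟨⟨(aestronglyMeasurable_indicator_iff hKm).2 hgm, by rw [hFe]; exact hgL.2⟩, ?_, by rw [hFe]; exact hnorm⟩
  exact (integrable_indicator_iff hKm).2 (hgL.integrable (by norm_num))

/-- **LC-G4** -/
theorem lc_junk {φ : E2 → ℝ} (hφ : Continuous φ) (K : Set E2) (f : E2 → ℂ)
    (h : ¬ MemLp f 3 (graphSurfaceMeasure φ K)) :
    (∀ x, graphExtension φ K f x = 0) ∨ eLpNorm f 3 (graphSurfaceMeasure φ K) = ⊤ := by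
  by_cases hm : AEStronglyMeasurable f (graphSurfaceMeasure φ K)
  · right
    by_contra htop
    exact h ⟨hm, lt_top_iff_ne_top.2 htop⟩
  · left
    intro x
    unfold graphExtension
    apply integral_undef
    intro hi
    apply hm
    have hc : Continuous fun y : E2 =>
        Complex.exp (-(2 * Real.pi * Complex.I * ((x 0 * y 0 + x 1 * y 1 + x 2 * φ y : ℝ) : ℂ))) := by
      fun_prop
    refine (hc.aestronglyMeasurable.mul hi.aestronglyMeasurable).congr (Filter.Eventually.of_forall fun y => ?_)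
    show Complex.exp (-_) * (Complex.exp _ * f y) = f y
    rw [← mul_assoc, ← Complex.exp_add, neg_add_cancel, Complex.exp_zero, one_mul]

/-- the unimodular factor. -/
theorem lc_norm_exp (r : ℝ) : ‖Complex.exp (2 * Real.pi * Complex.I * (r : ℂ))‖ = 1 := by
  have : (2 * Real.pi * Complex.I * (r : ℂ)) = ((2 * Real.pi * r : ℝ) : ℂ) * Complex.I := by
    push_cast; ring
  rw [this, Complex.norm_exp_ofReal_mul_I]

theorem lc_T_continuous (hφ : Continuous φ) {F : E2 → ℂ} (hF : Integrable F volume) :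
    Continuous (lcT φ F) := by
  unfold lcT
  refine continuous_of_dominated (bound := fun y => ‖F y‖) (fun q => ?_) (fun q => ?_) hF.norm ?_
  · have hc : Continuous fun y : E2 =>
        Complex.exp (2 * Real.pi * Complex.I * ((⟪q.2, y⟫_ℝ + q.1 * φ y : ℝ) : ℂ)) := by
      fun_prop
    exact hc.aestronglyMeasurable.mul hF.aestronglyMeasurable
  · refine Filter.Eventually.of_forall fun y => ?_
    rw [norm_mul, lc_norm_exp, one_mul]
  · refine Filter.Eventually.of_forall fun y => ?_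
    fun_prop

/-- **LC-G5** -/
theorem lc_T_aesm (hφ : Continuous φ) {F : E2 → ℂ} (hF : Integrable F volume) (μ : Measure (ℝ × E2)) :
    AEStronglyMeasurable (lcT φ F) μ :=
  (lc_T_continuous hφ hF).aestronglyMeasurable

theorem lc_integrable_exp_mul (hφ : Continuous φ) {F : E2 → ℂ} (hF : Integrable F volume) (q : ℝ × E2) :
    Integrable (fun y : E2 =>
      Complex.exp (2 * Real.pi * Complex.I * ((⟪q.2, y⟫_ℝ + q.1 * φ y : ℝ) : ℂ)) * F y) volume := by
  have hc : Continuous fun y : E2 =>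
      Complex.exp (2 * Real.pi * Complex.I * ((⟪q.2, y⟫_ℝ + q.1 * φ y : ℝ) : ℂ)) := by
    fun_prop
  exact hF.bdd_mul (c := 1) hc.aestronglyMeasurable
    (Filter.Eventually.of_forall fun y => (lc_norm_exp _).le)

theorem lc_T_add (hφ : Continuous φ) {F G : E2 → ℂ} (hF : Integrable F volume) (hG : Integrable G volume)
    (q : ℝ × E2) : lcT φ (fun y => F y + G y) q = lcT φ F q + lcT φ G q := by
  unfold lcT
  rw [← integral_add (lc_integrable_exp_mul hφ hF q) (lc_integrable_exp_mul hφ hG q)]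
  congr 1
  funext y
  ring

/-- **LC-G6** -/
theorem LocEst.mono (h : LocEst φ S') (hS : S ⊆ S') : LocEst φ S := by
  intro ν hν
  obtain ⟨C, hC⟩ := h ν hν
  exact ⟨C, fun R hR F h1 h2 h3 => hC R hR F h1 h2 (fun y hy => hS (h3 y hy))⟩

theorem LocEst.empty (φ : E2 → ℝ) : LocEst φ ∅ := by
  intro ν _
  refine ⟨0, fun R _ F _ _ h0 => ?_⟩
  have hF : F = 0 := by
    funext y
    by_contra hy
    exact h0 y hy
  have hT : lcT φ F = 0 := by
    funext q
    simp [lcT, hF]
  rw [hT]
  simp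

theorem LocEst.union (hφ : Continuous φ) (hS : MeasurableSet S) (h : LocEst φ S) (h' : LocEst φ S') :
    LocEst φ (S ∪ S') := by
  intro ν hν
  obtain ⟨C₁, hC₁⟩ := h ν hν
  obtain ⟨C₂, hC₂⟩ := h' ν hν
  refine ⟨|C₁| + |C₂|, fun R hR F hF3 hF1 hsupp => ?_⟩
  have hR0 : 0 < R := by linarith
  have hRν : 0 < R ^ ν := Real.rpow_pos_of_pos hR0 ν
  set F₁ : E2 → ℂ := S.indicator F with hF₁
  set F₂ : E2 → ℂ := Sᶜ.indicator F with hF₂
  have e : F = fun y => F₁ y + F₂ y := by
    funext y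
    exact (congrFun (Set.indicator_self_add_compl S F) y).symm
  have i1 : Integrable F₁ volume := hF1.indicator hS
  have i2 : Integrable F₂ volume := hF1.indicator hS.compl
  have m1 : MemLp F₁ 3 volume := hF3.indicator hS
  have m2 : MemLp F₂ 3 volume := hF3.indicator hS.compl
  have b1 := hC₁ R hR F₁ m1 i1 (fun y hy => by
    by_contra hyS
    exact hy (Set.indicator_of_notMem hyS F))
  have b2 := hC₂ R hR F₂ m2 i2 (fun y hy => by
    have hyS : y ∈ Sᶜ := by
      by_contra hyS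
      exact hy (Set.indicator_of_notMem hyS F)
    have hFy : F y ≠ 0 := by
      rwa [hF₂, Set.indicator_of_mem hyS] at hy
    exact (hsupp y hFy).resolve_left hyS)
  have n1 : eLpNorm F₁ 3 volume ≤ eLpNorm F 3 volume := eLpNorm_indicator_le F
  have n2 : eLpNorm F₂ 3 volume ≤ eLpNorm F 3 volume := eLpNorm_indicator_le F
  have eT : lcT φ F = lcT φ F₁ + lcT φ F₂ := by
    funext q
    conv_lhs => rw [e]
    exact lc_T_add hφ i1 i2 q
  rw [eT]
  calc eLpNorm (lcT φ F₁ + lcT φ F₂) 3 (volume.restrict (lcBox R))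
      ≤ eLpNorm (lcT φ F₁) 3 (volume.restrict (lcBox R)) + eLpNorm (lcT φ F₂) 3 (volume.restrict (lcBox R)) :=
        eLpNorm_add_le (lc_T_aesm hφ i1 _) (lc_T_aesm hφ i2 _) (by norm_num)
    _ ≤ ENNReal.ofReal (C₁ * R ^ ν) * eLpNorm F₁ 3 volume + ENNReal.ofReal (C₂ * R ^ ν) * eLpNorm F₂ 3 volume :=
        add_le_add b1 b2
    _ ≤ ENNReal.ofReal (|C₁| * R ^ ν) * eLpNorm F 3 volume + ENNReal.ofReal (|C₂| * R ^ ν) * eLpNorm F 3 volume := by
        gcongr <;> exact le_abs_self _
    _ = ENNReal.ofReal ((|C₁| + |C₂|) * R ^ ν) * eLpNorm F 3 volume := by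
        rw [← add_mul, ← ENNReal.ofReal_add (by positivity) (by positivity), add_mul]

theorem lc_glob (hφ : Continuous φ) (hK : IsCompact K)
    (hloc : ∀ y₀ ∈ K, ∃ N : Set E2, IsOpen N ∧ y₀ ∈ N ∧ LocEst φ N) : LocEst φ K := by
  classical
  choose! N hNo hNm hNe using hloc
  obtain ⟨t, htK, hcov⟩ := hK.elim_nhds_subcover N (fun y hy => (hNo y hy).mem_nhds (hNm y hy))
  have key : ∀ s : Finset E2, (∀ y ∈ s, y ∈ K) → LocEst φ (⋃ y ∈ s, N y) := by
    intro s
    induction s using Finset.induction_on with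
    | empty =>
      intro _
      simpa using LocEst.empty φ
    | insert a s ha ih =>
      intro hs
      rw [Finset.set_biUnion_insert]
      exact LocEst.union hφ (hNo a (hs a (Finset.mem_insert_self a s))).measurableSet
        (hNe a (hs a (Finset.mem_insert_self a s))) (ih fun y hy => hs y (Finset.mem_insert_of_mem hy))
  exact (key t htK).mono hcov

/-- glue. -/
theorem loc_of_locEst (hφ : ContDiff ℝ ∞ φ) (hK : IsCompact K) (h : LocEst φ K) : LOC φ K := by
  have hφ1 : Continuous (fderiv ℝ φ) := hφ.continuous_fderiv (by simp)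
  obtain ⟨Cw, hCw0, hCw⟩ := lc_F_bound hφ1 hK
  intro ν hν
  obtain ⟨C, hC⟩ := h ν hν
  refine ⟨max C 1 * (Cw + 1), fun R hR f => ?_⟩
  have hR0 : 0 < R := by linarith
  have hRν : 0 < R ^ ν := Real.rpow_pos_of_pos hR0 ν
  have hpos : 0 < max C 1 * (Cw + 1) * R ^ ν := by
    have : 0 < max C 1 := lt_of_lt_of_le one_pos (le_max_right _ _)
    positivity
  by_cases hf : MemLp f 3 (graphSurfaceMeasure φ K)
  · obtain ⟨h1, h2, h3⟩ := hCw f hf
    have h4 := hC R hR (lcF φ K f) h1 h2 (fun y hy => by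
      by_contra hyK
      exact hy (by simp [lcF, hyK]))
    have e1 : graphExtension φ K f = lcT φ (lcF φ K f) ∘ lcSplit := by
      funext x; exact lc_ext_eq hφ1 hK.measurableSet f x
    have h5 : eLpNorm (graphExtension φ K f) 3 (volume.restrict (Metric.ball 0 R)) ≤
        eLpNorm (lcT φ (lcF φ K f)) 3 (volume.restrict (lcBox R)) := by
      rw [e1]
      have hmp := lc_split_mp.restrict_preimage_emb lc_split_emb (lcBox R)
      rw [← hmp.map_eq, lc_split_emb.eLpNorm_map_measure]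
      exact eLpNorm_mono_measure _ (Measure.restrict_mono (fun x hx => lc_split_ball hx) le_rfl)
    calc _ ≤ _ := h5
      _ ≤ _ := h4
      _ ≤ ENNReal.ofReal (C * R ^ ν) * (ENNReal.ofReal Cw * eLpNorm f 3 (graphSurfaceMeasure φ K)) := by
          gcongr
      _ = (ENNReal.ofReal (C * R ^ ν) * ENNReal.ofReal Cw) * eLpNorm f 3 (graphSurfaceMeasure φ K) := by
          rw [mul_assoc]
      _ ≤ _ := by
          gcongr
          rw [← ENNReal.ofReal_mul' hCw0]
          apply ENNReal.ofReal_le_ofReal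
          have a1 : C * R ^ ν ≤ max C 1 * R ^ ν := by gcongr; exact le_max_left _ _
          have a2 : 0 ≤ max C 1 * R ^ ν := by
            have : 0 < max C 1 := lt_of_lt_of_le one_pos (le_max_right _ _)
            positivity
          calc C * R ^ ν * Cw ≤ max C 1 * R ^ ν * Cw := by gcongr
            _ ≤ max C 1 * R ^ ν * (Cw + 1) := by gcongr; linarith
            _ = _ := by ring
  · rcases lc_junk hφ.continuous K f hf with h0 | h0
    · have : graphExtension φ K f = 0 := by funext x; exact h0 x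
      rw [this]; simp
    · rw [h0, ENNReal.mul_top (by simpa using hpos)]
      exact le_top

end Claimed.Agent.R254.Loc
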