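import Claimed.Agent.R254.Defs
import Claimed.Agent.R254.Loc.Glob

/-!
# Row 254, END254-A: from `Loc.LocEst φ N` to helper65's contract `R254.LocEst φ y₀ ρ`      (architect helper31)
-/

set_option autoImplicit false

namespace Claimed.Agent.R254.Loc

open MeasureTheory Claimed.Agent.R255.Osc
open scoped ContDiff InnerProductSpace

variable {φ : E2 → ℝ} {N : Set E2}

theorem lc_ext_eq_T (φ : E2 → ℝ) (g : E2 → ℂ) (x : E3) : ext φ g x = lcT φ g (lcSplit x) := by
  unfold ext lcT ee ph lcSplit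
  congr 1
  funext y
  congr 4
  simp [PiLp.inner_apply, Fin.sum_univ_two, mul_comm]

theorem lc_integrable_of_ball {g : E2 → ℂ} {y₀ : E2} {ρ : ℝ} (h3 : MemLp g 3 volume)
    (hs : ∀ y, g y ≠ 0 → y ∈ Metric.closedBall y₀ ρ) : Integrable g volume := by
  have h1 : MemLp g 1 (volume.restrict (Metric.closedBall y₀ ρ)) := by
    have : IsFiniteMeasure (volume.restrict (Metric.closedBall y₀ ρ)) :=
      ⟨by rw [Measure.restrict_apply_univ]; exact measure_closedBall_lt_top⟩
    exact (h3.restrict _).mono_exponent (by norm_num)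
  have h2 : IntegrableOn g (Metric.closedBall y₀ ρ) volume := memLp_one_iff_integrable.1 h1
  refine (integrableOn_iff_integrable_of_support_subset ?_).1 h2
  intro y hy
  exact hs y hy

theorem lc_ball_of_locEst {y₀ : E2} {ρ : ℝ} (h : LocEst φ N) (hsub : Metric.closedBall y₀ ρ ⊆ N) :
    Claimed.Agent.R254.LocEst φ y₀ ρ := by
  intro ν hν
  obtain ⟨C, hC⟩ := h (ν / 3) (by positivity)
  refine ⟨|C| ^ 3, by positivity, fun R hR g h3 hs => ?_⟩
  have hR0 : 0 < R := by linarith
  have h4 := hC R hR g h3 (lc_integrable_of_ball h3 hs) (fun y hy => hsub (hs y hy))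
  have e1 : ext φ g = lcT φ g ∘ lcSplit := by
    funext x; exact lc_ext_eq_T φ g x
  have h5 : eLpNorm (ext φ g) 3 (volume.restrict (Metric.ball 0 R)) ≤
      eLpNorm (lcT φ g) 3 (volume.restrict (lcBox R)) := by
    rw [e1]
    have hmp := lc_split_mp.restrict_preimage_emb lc_split_emb (lcBox R)
    rw [← hmp.map_eq, lc_split_emb.eLpNorm_map_measure]
    exact eLpNorm_mono_measure _ (Measure.restrict_mono (fun x hx => lc_split_ball hx) le_rfl)
  have h6 := h5.trans h4
  rw [eLpNorm_eq_lintegral_rpow_enorm_toReal (by norm_num) (by norm_num),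
    eLpNorm_eq_lintegral_rpow_enorm_toReal (by norm_num) (by norm_num)] at h6
  have h7 := ENNReal.rpow_le_rpow h6 (z := 3) (by norm_num)
  rw [ENNReal.mul_rpow_of_nonneg _ _ (by norm_num), ← ENNReal.rpow_mul, ← ENNReal.rpow_mul] at h7
  have e3 : (1 / (3 : ENNReal).toReal) * 3 = 1 := by norm_num
  rw [e3, ENNReal.rpow_one, ENNReal.rpow_one] at h7
  have e4 : (3 : ENNReal).toReal = 3 := by norm_num
  rw [e4] at h7
  refine h7.trans ?_
  gcongr
  have hRn : 0 ≤ R ^ (ν / 3) := (Real.rpow_pos_of_pos hR0 _).le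
  calc ENNReal.ofReal (C * R ^ (ν / 3)) ^ (3 : ℝ)
      ≤ ENNReal.ofReal (|C| * R ^ (ν / 3)) ^ (3 : ℝ) := by
        gcongr
        exact le_abs_self C
    _ = ENNReal.ofReal ((|C| * R ^ (ν / 3)) ^ (3 : ℝ)) :=
        ENNReal.ofReal_rpow_of_nonneg (by positivity) (by norm_num)
    _ = _ := by
        congr 1
        rw [Real.mul_rpow (abs_nonneg C) hRn, ← Real.rpow_mul hR0.le]
        norm_num

end Claimed.Agent.R254.Loc
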