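import Claimed.Agent.R254.Loc.Hess

/-!
# Row 254, END254-A: globalisation of the graph function      (architect helper31)

`lc_cut`: given `φ ∈ C^∞`, `y₀`, `ε > 0` there are `r > 0` and `ψ ∈ C^∞` with `ψ = φ` on `ball y₀ r`, `‖D²ψ(y) - D²φ(y₀)‖ ≤ ε` for ALL `y`, and
`D²ψ(y) = D²φ(y₀)` off `closedBall y₀ (2r)`.          `ψ = q + θ_r (φ - q)`, `q = lcQ φ y₀` the Taylor polynomial of order two, `θ_r = θ((· - y₀)/r)`.

Leaves (Mathlib only):
* **LC-C1** `lcQ_contDiff`, `lcQ_grad`, `lcQ_hs`, `lcQ_self`, `lcQ_grad_self`.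
* **LC-C2** `lc_bump`: fixed `ContDiffBump (0 : E2)` with `rIn = 1`, `rOut = 2`; the derivatives of order `≤ 2` are continuous with compact support, hence bounded; scaling
  (`iteratedFDeriv_comp_…`, or `iteratedFDeriv_const_smul_apply`/`ContinuousLinearMap.iteratedFDeriv_comp_right` for `y ↦ r⁻¹ • y`, translation `iteratedFDeriv_comp_sub`).
* **LC-C3** `lc_taylor`: `D²h` continuous and `0` at `y₀`; mean value inequality on the convex ball twice (`Convex.norm_image_sub_le_of_norm_fderiv_le`).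
* **LC-C4** `lc_prod_bound`: `norm_iteratedFDeriv_mul_le` with `n = 2`, `Finset.sum_range_succ`.
-/

set_option autoImplicit false

namespace Claimed.Agent.R254.Loc

open MeasureTheory Claimed.Agent.R255.Osc
open scoped ContDiff InnerProductSpace Topology

variable {φ : E2 → ℝ}

/-- Taylor polynomial of order two of `φ` at `y₀`. -/
noncomputable def lcQ (φ : E2 → ℝ) (y₀ y : E2) : ℝ :=
  φ y₀ + ⟪gradient φ y₀, y - y₀⟫_ℝ + (1 / 2) * ⟪hs φ y₀ (y - y₀), y - y₀⟫_ℝ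

/-- **LC-C1** -/
theorem lcQ_contDiff (φ : E2 → ℝ) (y₀ : E2) : ContDiff ℝ ∞ (lcQ φ y₀) := by
  unfold lcQ
  have hd : ContDiff ℝ ∞ (fun y : E2 => y - y₀) := contDiff_id.sub contDiff_const
  exact (contDiff_const.add (contDiff_const.inner ℝ hd)).add
    (contDiff_const.mul (((hs φ y₀).contDiff.comp hd).inner ℝ hd))

theorem lcQ_grad (hφ : ContDiff ℝ ∞ φ) (y₀ y : E2) :
    HasGradientAt (lcQ φ y₀) (gradient φ y₀ + hs φ y₀ (y - y₀)) y := by
  rw [hasGradientAt_iff_hasFDerivAt]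
  have hd : HasFDerivAt (fun y : E2 => y - y₀) (ContinuousLinearMap.id ℝ E2) y := (hasFDerivAt_id y).sub_const y₀
  have h1 : HasFDerivAt (fun y : E2 => ⟪gradient φ y₀, y - y₀⟫_ℝ) _ y :=
    (hasFDerivAt_const (gradient φ y₀) y).inner ℝ hd
  have hH : HasFDerivAt (fun y : E2 => hs φ y₀ (y - y₀)) ((hs φ y₀).comp (ContinuousLinearMap.id ℝ E2)) y :=
    (hs φ y₀).hasFDerivAt.comp y hd
  have h2 : HasFDerivAt (fun y : E2 => ⟪hs φ y₀ (y - y₀), y - y₀⟫_ℝ) _ y := hH.inner ℝ hd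
  have h3 := ((hasFDerivAt_const (φ y₀) y).add h1).add (h2.const_mul (1 / 2))
  refine h3.congr_fderiv ?_
  ext a
  simp only [add_apply, smul_apply, ContinuousLinearMap.comp_apply,
    fderivInnerCLM_apply, ContinuousLinearMap.prod_apply, zero_apply,
    ContinuousLinearMap.id_apply, InnerProductSpace.toDual_apply_apply, inner_zero_left, smul_eq_mul, inner_add_left]
  have := hs_symm hφ y₀ (y - y₀) a
  rw [real_inner_comm (y - y₀) (hs φ y₀ a)]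
  linarith

theorem lcQ_hs (hφ : ContDiff ℝ ∞ φ) (y₀ y : E2) : hs (lcQ φ y₀) y = hs φ y₀ := by
  rw [hs_of_grad (lcQ_grad hφ y₀)]
  have hd : HasFDerivAt (fun y : E2 => y - y₀) (ContinuousLinearMap.id ℝ E2) y := (hasFDerivAt_id y).sub_const y₀
  have hH : HasFDerivAt (fun y : E2 => hs φ y₀ (y - y₀)) ((hs φ y₀).comp (ContinuousLinearMap.id ℝ E2)) y :=
    (hs φ y₀).hasFDerivAt.comp y hd
  have := (hH.const_add (gradient φ y₀)).fderiv
  rw [this]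
  simp

/-- **LC-C2** -/
theorem lc_bump : ∃ C : ℝ, 0 ≤ C ∧ ∀ (y₀ : E2) (r : ℝ), 0 < r → ∃ θ : E2 → ℝ, ContDiff ℝ ∞ θ ∧
    (∀ y ∈ Metric.ball y₀ r, θ y = 1) ∧ (∀ y, y ∉ Metric.ball y₀ (2 * r) → θ y = 0) ∧
    ∀ (y : E2) (k : ℕ), k ≤ 2 → ‖iteratedFDeriv ℝ k θ y‖ ≤ C / r ^ k := by
  let θ₁ : ContDiffBump (0 : E2) := ⟨1, 2, by norm_num, by norm_num⟩
  have hθ₁ : ContDiff ℝ ∞ (θ₁ : E2 → ℝ) := θ₁.contDiff
  have hbd : ∀ k : ℕ, ∃ Ck : ℝ, ∀ z : E2, ‖iteratedFDeriv ℝ k (θ₁ : E2 → ℝ) z‖ ≤ Ck := by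
    intro k
    have hc : Continuous (iteratedFDeriv ℝ k (θ₁ : E2 → ℝ)) :=
      hθ₁.continuous_iteratedFDeriv (by exact_mod_cast le_top)
    have hs : HasCompactSupport (iteratedFDeriv ℝ k (θ₁ : E2 → ℝ)) := θ₁.hasCompactSupport.iteratedFDeriv k
    exact hc.bounded_above_of_compact_support hs
  choose Ck hCk using hbd
  have hCk0 : ∀ k, 0 ≤ Ck k := fun k => (norm_nonneg _).trans (hCk k 0)
  refine ⟨Ck 0 + Ck 1 + Ck 2, by have := hCk0 0; have := hCk0 1; have := hCk0 2; positivity, fun y₀ r hr => ?_⟩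
  let g : E2 →L[ℝ] E2 := r⁻¹ • ContinuousLinearMap.id ℝ E2
  have hg : ∀ z, g z = r⁻¹ • z := fun z => by simp [g]
  have hgn : ‖g‖ ≤ r⁻¹ := by
    refine ContinuousLinearMap.opNorm_le_bound _ (by positivity) fun z => ?_
    rw [hg, norm_smul, Real.norm_of_nonneg (by positivity)]
  have hcomp : ContDiff ℝ ∞ ((θ₁ : E2 → ℝ) ∘ g) := hθ₁.comp g.contDiff
  refine ⟨fun z => ((θ₁ : E2 → ℝ) ∘ g) (z - y₀), hcomp.comp (contDiff_id.sub contDiff_const), ?_, ?_, ?_⟩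
  · intro y hy
    simp only [Function.comp_apply, hg]
    apply θ₁.one_of_mem_closedBall
    rw [mem_closedBall_zero_iff, norm_smul, Real.norm_of_nonneg (by positivity)]
    rw [Metric.mem_ball, dist_eq_norm] at hy
    show r⁻¹ * ‖y - y₀‖ ≤ 1
    rw [inv_mul_le_iff₀ hr]; linarith
  · intro y hy
    simp only [Function.comp_apply, hg]
    apply θ₁.zero_of_le_dist
    rw [dist_zero_right, norm_smul, Real.norm_of_nonneg (by positivity)]
    rw [Metric.mem_ball, dist_eq_norm, not_lt] at hy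
    show 2 ≤ r⁻¹ * ‖y - y₀‖
    rw [← div_eq_inv_mul, le_div_iff₀ hr]; exact hy
  · intro y k hk
    rw [iteratedFDeriv_comp_sub, g.iteratedFDeriv_comp_right hθ₁ _ (by exact_mod_cast le_top)]
    refine (ContinuousMultilinearMap.norm_compContinuousLinearMap_le _ _).trans ?_
    rw [Finset.prod_const, Finset.card_univ, Fintype.card_fin]
    have h1 : ‖g‖ ^ k ≤ (r⁻¹) ^ k := pow_le_pow_left₀ (norm_nonneg _) hgn k
    have h2 : ‖iteratedFDeriv ℝ k (θ₁ : E2 → ℝ) (g (y - y₀))‖ ≤ Ck 0 + Ck 1 + Ck 2 := by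
      refine (hCk k _).trans ?_
      have := hCk0 0; have := hCk0 1; have := hCk0 2
      interval_cases k <;> linarith
    calc _ ≤ (Ck 0 + Ck 1 + Ck 2) * (r⁻¹) ^ k := mul_le_mul h2 h1 (by positivity)
          (by have := hCk0 0; have := hCk0 1; have := hCk0 2; positivity)
      _ = _ := by rw [inv_pow, div_eq_mul_inv]

/-- **LC-C3** -/
theorem lc_taylor {h : E2 → ℝ} (hh : ContDiff ℝ ∞ h) {y₀ : E2} (h0 : h y₀ = 0) (h1 : gradient h y₀ = 0)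
    (h2 : hs h y₀ = 0) {ε : ℝ} (hε : 0 < ε) :
    ∃ δ : ℝ, 0 < δ ∧ ∀ y ∈ Metric.ball y₀ δ, ∀ k : ℕ, k ≤ 2 →
      ‖iteratedFDeriv ℝ k h y‖ ≤ ε * ‖y - y₀‖ ^ (2 - k) := by
  have hcont : Continuous (hs h) := (hs_contDiff hh).continuous
  have hev : ∀ᶠ y in 𝓝 y₀, ‖hs h y‖ < ε := by
    have : Filter.Tendsto (fun y => ‖hs h y‖) (𝓝 y₀) (𝓝 ‖hs h y₀‖) := (hcont.norm.tendsto y₀)
    rw [h2, norm_zero] at this
    exact this.eventually (gt_mem_nhds hε)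
  obtain ⟨δ, hδ, hball⟩ := Metric.eventually_nhds_iff_ball.1 hev
  refine ⟨δ, hδ, ?_⟩
  -- first order
  have hgrad : ∀ y ∈ Metric.ball y₀ δ, ‖gradient h y‖ ≤ ε * ‖y - y₀‖ := by
    intro y hy
    have := (convex_ball y₀ δ).norm_image_sub_le_of_norm_fderiv_le (𝕜 := ℝ) (f := gradient h) (C := ε)
      (fun x _ => (hs_hasFDerivAt hh x).differentiableAt)
      (fun x hx => by
        have : fderiv ℝ (gradient h) x = hs h x := rfl
        rw [this]; exact (hball x hx).le)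
      (Metric.mem_ball_self hδ) hy
    rwa [h1, sub_zero] at this
  have hfd : ∀ y, ‖fderiv ℝ h y‖ = ‖gradient h y‖ := by
    intro y
    unfold gradient
    rw [LinearIsometryEquiv.norm_map]
  intro y hy k hk
  interval_cases k
  · -- zeroth order
    rw [norm_iteratedFDeriv_zero]
    have hy' : ‖y - y₀‖ < δ := by rwa [Metric.mem_ball, dist_eq_norm] at hy
    have hsub : Metric.closedBall y₀ ‖y - y₀‖ ⊆ Metric.ball y₀ δ := Metric.closedBall_subset_ball hy'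
    have := (convex_closedBall y₀ ‖y - y₀‖).norm_image_sub_le_of_norm_fderiv_le (𝕜 := ℝ) (f := h) (C := ε * ‖y - y₀‖)
      (fun x _ => (hh.differentiable (by simp)) x)
      (fun x hx => by
        rw [hfd]
        refine (hgrad x (hsub hx)).trans ?_
        apply mul_le_mul_of_nonneg_left _ hε.le
        rwa [Metric.mem_closedBall, dist_eq_norm] at hx)
      (Metric.mem_closedBall_self (norm_nonneg _))
      (by rw [Metric.mem_closedBall, dist_eq_norm])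
    rw [h0, sub_zero] at this
    refine this.trans (le_of_eq ?_)
    show ε * ‖y - y₀‖ * ‖y - y₀‖ = ε * ‖y - y₀‖ ^ 2
    ring
  · rw [norm_iteratedFDeriv_one, hfd]
    simpa using hgrad y hy
  · rw [← hs_norm hh]
    simpa using (hball y hy).le

/-- **LC-C4** -/
theorem lc_prod_bound {θ h : E2 → ℝ} (hθ : ContDiff ℝ ∞ θ) (hh : ContDiff ℝ ∞ h) {y : E2} {C r ε s : ℝ}
    (hC : 0 ≤ C) (hr : 0 < r) (hε : 0 ≤ ε) (hs0 : 0 ≤ s) (hs : s ≤ 2 * r)
    (h1 : ∀ k : ℕ, k ≤ 2 → ‖iteratedFDeriv ℝ k θ y‖ ≤ C / r ^ k)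
    (h2 : ∀ k : ℕ, k ≤ 2 → ‖iteratedFDeriv ℝ k h y‖ ≤ ε * s ^ (2 - k)) :
    ‖iteratedFDeriv ℝ 2 (fun z => θ z * h z) y‖ ≤ 9 * C * ε := by
  have hle : ((2 : ℕ) : WithTop ℕ∞) ≤ ∞ := WithTop.coe_le_coe.2 (le_top : (2 : ℕ∞) ≤ ⊤)
  have hmul := norm_iteratedFDeriv_mul_le hθ hh y (n := 2) hle
  refine hmul.trans ?_
  have a0 : ‖iteratedFDeriv ℝ 0 θ y‖ ≤ C := by simpa using h1 0 (by norm_num)
  have a1 : ‖iteratedFDeriv ℝ 1 θ y‖ ≤ C / r := by simpa using h1 1 (by norm_num)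
  have a2 : ‖iteratedFDeriv ℝ 2 θ y‖ ≤ C / r ^ 2 := h1 2 (by norm_num)
  have b0 : ‖iteratedFDeriv ℝ 0 h y‖ ≤ ε * s ^ 2 := h2 0 (by norm_num)
  have b1 : ‖iteratedFDeriv ℝ 1 h y‖ ≤ ε * s := by simpa using h2 1 (by norm_num)
  have b2 : ‖iteratedFDeriv ℝ 2 h y‖ ≤ ε := by simpa using h2 2 (by norm_num)
  have t0 : ‖iteratedFDeriv ℝ 0 θ y‖ * ‖iteratedFDeriv ℝ 2 h y‖ ≤ C * ε :=
    mul_le_mul a0 b2 (norm_nonneg _) hC
  have hsr : s / r ≤ 2 := by rw [div_le_iff₀ hr]; exact hs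
  have hsr0 : 0 ≤ s / r := by positivity
  have t1 : ‖iteratedFDeriv ℝ 1 θ y‖ * ‖iteratedFDeriv ℝ 1 h y‖ ≤ 2 * (C * ε) := by
    calc _ ≤ (C / r) * (ε * s) := mul_le_mul a1 b1 (norm_nonneg _) (by positivity)
      _ = (C * ε) * (s / r) := by field_simp
      _ ≤ (C * ε) * 2 := mul_le_mul_of_nonneg_left hsr (by positivity)
      _ = _ := by ring
  have t2 : ‖iteratedFDeriv ℝ 2 θ y‖ * ‖iteratedFDeriv ℝ 0 h y‖ ≤ 4 * (C * ε) := by
    calc _ ≤ (C / r ^ 2) * (ε * s ^ 2) := mul_le_mul a2 b0 (norm_nonneg _) (by positivity)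
      _ = (C * ε) * (s / r) ^ 2 := by field_simp
      _ ≤ (C * ε) * 2 ^ 2 := by
          apply mul_le_mul_of_nonneg_left _ (by positivity)
          exact pow_le_pow_left₀ hsr0 hsr 2
      _ = _ := by ring
  have e : ∑ i ∈ Finset.range (2 + 1), ((2 : ℕ).choose i : ℝ) * ‖iteratedFDeriv ℝ i θ y‖ * ‖iteratedFDeriv ℝ (2 - i) h y‖ =
      ‖iteratedFDeriv ℝ 0 θ y‖ * ‖iteratedFDeriv ℝ 2 h y‖ + 2 * (‖iteratedFDeriv ℝ 1 θ y‖ * ‖iteratedFDeriv ℝ 1 h y‖) +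
        ‖iteratedFDeriv ℝ 2 θ y‖ * ‖iteratedFDeriv ℝ 0 h y‖ := by
    rw [Finset.sum_range_succ, Finset.sum_range_succ, Finset.sum_range_succ, Finset.sum_range_zero]
    have e0 : (2 - 0 : ℕ) = 2 := rfl
    have e1 : (2 - 1 : ℕ) = 1 := rfl
    have e2 : (2 - 2 : ℕ) = 0 := rfl
    rw [e0, e1, e2, Nat.choose_zero_right, Nat.choose_one_right, Nat.choose_self]
    push_cast
    ring
  rw [e]
  linarith

/-- glue. -/
theorem lc_cut (hφ : ContDiff ℝ ∞ φ) (y₀ : E2) {ε : ℝ} (hε : 0 < ε) :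
    ∃ r : ℝ, 0 < r ∧ ∃ ψ : E2 → ℝ, ContDiff ℝ ∞ ψ ∧ (∀ y ∈ Metric.ball y₀ r, ψ y = φ y) ∧
      (∀ y, ‖hs ψ y - hs φ y₀‖ ≤ ε) ∧ ∀ y, y ∉ Metric.closedBall y₀ (2 * r) → hs ψ y = hs φ y₀ := by
  obtain ⟨C, hC0, hC⟩ := lc_bump
  have hq := lcQ_contDiff φ y₀
  set h : E2 → ℝ := fun z => φ z - lcQ φ y₀ z with hh_def
  have hh : ContDiff ℝ ∞ h := hφ.sub hq
  have h0 : h y₀ = 0 := by simp [hh_def, lcQ]
  have h1 : gradient h y₀ = 0 := by
    have h' : HasGradientAt h (gradient φ y₀ - (gradient φ y₀ + hs φ y₀ (y₀ - y₀))) y₀ := by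
      rw [hasGradientAt_iff_hasFDerivAt, map_sub]
      exact (hs_hasGradientAt hφ y₀).hasFDerivAt.sub (lcQ_grad hφ y₀ y₀).hasFDerivAt
    rw [h'.gradient]; simp
  have h2 : hs h y₀ = 0 := by
    rw [hh_def, hs_sub hφ hq, lcQ_hs hφ]; simp
  have hε' : 0 < ε / (9 * C + 1) := by positivity
  obtain ⟨δ, hδ, hT⟩ := lc_taylor hh h0 h1 h2 hε'
  have hr : 0 < δ / 3 := by positivity
  obtain ⟨θ, hθ, hθ1, hθ0, hθb⟩ := hC y₀ (δ / 3) hr
  have hθh : ContDiff ℝ ∞ (fun z => θ z * h z) := hθ.mul hh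
  have key : ∀ y, hs (fun z => lcQ φ y₀ z + θ z * h z) y = hs φ y₀ + hs (fun z => θ z * h z) y := by
    intro y
    rw [hs_add hq hθh, lcQ_hs hφ]
  have off : ∀ y, y ∉ Metric.closedBall y₀ (2 * (δ / 3)) → hs (fun z => θ z * h z) y = 0 := by
    intro y hy
    have : (fun z => θ z * h z) =ᶠ[𝓝 y] fun _ => (0 : ℝ) := by
      filter_upwards [Metric.isClosed_closedBall.isOpen_compl.mem_nhds hy] with z hz
      rw [hθ0 z (fun hz' => hz (Metric.ball_subset_closedBall hz')), zero_mul]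
    rw [hs_congr this, hs_zero]
  refine ⟨δ / 3, hr, fun z => lcQ φ y₀ z + θ z * h z, hq.add hθh, ?_, ?_, ?_⟩
  · intro y hy
    simp [hθ1 y hy, hh_def]
  · intro y
    rw [key, add_sub_cancel_left]
    by_cases hy : y ∈ Metric.closedBall y₀ (2 * (δ / 3))
    · have hy' : ‖y - y₀‖ ≤ 2 * (δ / 3) := by simpa [dist_eq_norm] using hy
      have hyδ : y ∈ Metric.ball y₀ δ := by
        rw [Metric.mem_ball, dist_eq_norm]; linarith
      rw [hs_norm hθh]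
      refine (lc_prod_bound hθ hh hC0 hr hε'.le (norm_nonneg _) hy' (hθb y) (hT y hyδ)).trans ?_
      rw [mul_div_assoc', div_le_iff₀ (by positivity)]
      nlinarith
    · rw [off y hy]; simpa using hε.le
  · intro y hy
    rw [key, off y hy, add_zero]

end Claimed.Agent.R254.Loc
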