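import Claimed.Agent.R254.Loc.Hess

/-!
# Row 254, END254-A: the global inverse of `y ↦ -∇ψ(y)` and the Legendre transform      (architect helper31)

`ψ ∈ C^∞(E2)` with `‖D²ψ(y) - H₀‖ ≤ m/2` for all `y`, `H₀ ≥ m > 0`.  Then `G = -∇ψ` is a `C^∞` diffeomorphism of `E2`; `Y = G⁻¹`;
`X(v) = lcLeg ψ Y v = - v·Y(v) - ψ(Y v)` satisfies `∇X = -Y`, `D²X(v) = (D²ψ(Y v))⁻¹`.

Leaves (Mathlib only):
* **LC-I1** `lc_equiv_of_coercive` (`LinearEquiv.ofInjectiveEndo`, `LinearEquiv.toContinuousLinearEquiv`; `m‖b‖² ≤ ⟪A b,b⟫ ≤ ‖A b‖‖b‖`; `ContinuousLinearMap.opNorm_le_bound`).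
* **LC-I2** `lc_coercive_pert`, `lc_inv_bounds` (Cauchy-Schwarz).
* **LC-I3** `lc_homeo`: `ApproximatesLinearOn.toHomeomorph` (`approximatesLinearOn_iff_lipschitzOnWith`, `lipschitzWith_of_nnnorm_fderiv_le`, the derivative of `G - G'` is `-(hs ψ y - H₀)`).
* **LC-I4** `lc_inv`: `Homeomorph.contDiff_symm`.
* **LC-I5** `lcLeg_contDiff`, `lcLeg_grad`, `lcLeg_hs`, `lcLeg_hs_inv`, `lcLeg_phase`.
-/

set_option autoImplicit false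

namespace Claimed.Agent.R254.Loc

open MeasureTheory Claimed.Agent.R255.Osc
open scoped ContDiff InnerProductSpace Topology NNReal

variable {ψ : E2 → ℝ}

theorem lc_coercive_norm (A : E2 →L[ℝ] E2) {m : ℝ} (h : ∀ a, m * ‖a‖ ^ 2 ≤ ⟪A a, a⟫_ℝ) (b : E2) :
    m * ‖b‖ ≤ ‖A b‖ := by
  rcases eq_or_ne b 0 with rfl | hb
  · simp
  have hb' : 0 < ‖b‖ := norm_pos_iff.2 hb
  have h1 := h b
  have h2 : ⟪A b, b⟫_ℝ ≤ ‖A b‖ * ‖b‖ := real_inner_le_norm _ _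
  have h3 : (m * ‖b‖) * ‖b‖ ≤ ‖A b‖ * ‖b‖ := by nlinarith
  exact le_of_mul_le_mul_right h3 hb'

/-- **LC-I1** -/
theorem lc_equiv_of_coercive (A : E2 →L[ℝ] E2) {m : ℝ} (hm : 0 < m) (h : ∀ a, m * ‖a‖ ^ 2 ≤ ⟪A a, a⟫_ℝ) :
    ∃ A' : E2 ≃L[ℝ] E2, (A' : E2 →L[ℝ] E2) = A ∧ ‖(A'.symm : E2 →L[ℝ] E2)‖ ≤ 1 / m := by
  have hinj : Function.Injective (A : E2 →ₗ[ℝ] E2) := by
    rw [← LinearMap.ker_eq_bot, LinearMap.ker_eq_bot']
    intro b hb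
    have h1 := lc_coercive_norm A h b
    have hb' : A b = 0 := hb
    rw [hb', norm_zero] at h1
    have : ‖b‖ ≤ 0 := by
      by_contra hc
      push Not at hc
      nlinarith
    exact norm_le_zero_iff.1 this
  refine ⟨(LinearEquiv.ofInjectiveEndo (A : E2 →ₗ[ℝ] E2) hinj).toContinuousLinearEquiv, ?_, ?_⟩
  · ext1 a
    simp
  · refine ContinuousLinearMap.opNorm_le_bound _ (by positivity) (fun a => ?_)
    set A' := (LinearEquiv.ofInjectiveEndo (A : E2 →ₗ[ℝ] E2) hinj).toContinuousLinearEquiv with hA'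
    have h1 := lc_coercive_norm A h (A'.symm a)
    have h2 : A (A'.symm a) = a := by
      have e1 : ∀ b, A' b = A b := fun b => by simp [hA']
      rw [← e1]
      exact A'.apply_symm_apply a
    rw [h2] at h1
    rw [ContinuousLinearEquiv.coe_coe, div_mul_eq_mul_div, one_mul, le_div_iff₀ hm]
    linarith

/-- **LC-I2** -/
theorem lc_coercive_pert {A H₀ : E2 →L[ℝ] E2} {m : ℝ} (h : ∀ a, m * ‖a‖ ^ 2 ≤ ⟪H₀ a, a⟫_ℝ)
    (hA : ‖A - H₀‖ ≤ m / 2) (a : E2) : m / 2 * ‖a‖ ^ 2 ≤ ⟪A a, a⟫_ℝ := by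
  have h1 : ⟪A a, a⟫_ℝ = ⟪H₀ a, a⟫_ℝ + ⟪(A - H₀) a, a⟫_ℝ := by
    rw [← inner_add_left]; simp
  have h2 : |⟪(A - H₀) a, a⟫_ℝ| ≤ ‖(A - H₀) a‖ * ‖a‖ := abs_real_inner_le_norm _ _
  have h3 : ‖(A - H₀) a‖ ≤ m / 2 * ‖a‖ := ((A - H₀).le_opNorm a).trans (by gcongr)
  have h4 : ‖(A - H₀) a‖ * ‖a‖ ≤ m / 2 * ‖a‖ * ‖a‖ := by gcongr
  have h5 := h a
  have h6 := (abs_le.1 h2).1
  rw [h1]
  nlinarith

theorem lc_inv_bounds {A B : E2 →L[ℝ] E2} (hAB : ∀ a, A (B a) = a) {m M : ℝ} (hm : 0 < m)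
    (hA : ∀ a, m * ‖a‖ ^ 2 ≤ ⟪A a, a⟫_ℝ) (hM : ‖A‖ ≤ M) (a : E2) :
    m / M ^ 2 * ‖a‖ ^ 2 ≤ ⟪B a, a⟫_ℝ ∧ ⟪B a, a⟫_ℝ ≤ 1 / m * ‖a‖ ^ 2 := by
  have h1 := hA (B a)
  rw [hAB, real_inner_comm] at h1
  have h2 : ‖a‖ ≤ M * ‖B a‖ := by
    calc ‖a‖ = ‖A (B a)‖ := by rw [hAB]
      _ ≤ ‖A‖ * ‖B a‖ := A.le_opNorm _
      _ ≤ _ := by gcongr
  have h3 := lc_coercive_norm A hA (B a)
  rw [hAB] at h3
  have hM0 : 0 ≤ M := (norm_nonneg A).trans hM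
  constructor
  · rcases hM0.eq_or_lt with h0 | h0
    · rw [← h0]; simp
      exact le_trans (by positivity) h1
    · rw [div_mul_eq_mul_div, div_le_iff₀ (by positivity)]
      have : ‖a‖ ^ 2 ≤ (M * ‖B a‖) ^ 2 := by gcongr
      nlinarith
  · have h4 : ⟪B a, a⟫_ℝ ≤ ‖B a‖ * ‖a‖ := real_inner_le_norm _ _
    rw [div_mul_eq_mul_div, one_mul, le_div_iff₀ hm]
    nlinarith [norm_nonneg a, norm_nonneg (B a)]

/-- **LC-I3** -/
theorem lc_homeo (hψ : ContDiff ℝ ∞ ψ) {H₀ : E2 →L[ℝ] E2} {m : ℝ} (hm : 0 < m)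
    (h0 : ∀ a, m * ‖a‖ ^ 2 ≤ ⟪H₀ a, a⟫_ℝ) (hε : ∀ y, ‖hs ψ y - H₀‖ ≤ m / 2) :
    ∃ e : E2 ≃ₜ E2, ∀ y, e y = -gradient ψ y := by
  obtain ⟨H', hH', hn⟩ := lc_equiv_of_coercive H₀ hm h0
  set f' : E2 ≃L[ℝ] E2 := H'.trans (ContinuousLinearEquiv.neg ℝ) with hf'_def
  have hf' : (f' : E2 →L[ℝ] E2) = -H₀ := by
    ext1 a
    simp [hf'_def, ← hH']
  have hsymm : ‖(f'.symm : E2 →L[ℝ] E2)‖ ≤ 1 / m := by
    have : (f'.symm : E2 →L[ℝ] E2) = -(H'.symm : E2 →L[ℝ] E2) := by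
      ext1 a
      simp [hf'_def]
    rw [this, norm_neg]; exact hn
  have hder : ∀ y, HasFDerivAt ((fun y => -gradient ψ y) - ⇑(f' : E2 →L[ℝ] E2)) (-(hs ψ y - H₀)) y := by
    intro y
    have h1 := ((hs_hasFDerivAt hψ y).neg).sub (f' : E2 →L[ℝ] E2).hasFDerivAt (x := y)
    rw [hf'] at h1
    rw [hf']
    have e : -(hs ψ y - H₀) = -hs ψ y - -H₀ := by abel
    rw [e]
    exact h1
  have happ : ApproximatesLinearOn (fun y => -gradient ψ y) (f' : E2 →L[ℝ] E2) Set.univ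
      (Real.toNNReal (m / 2)) := by
    rw [ApproximatesLinearOn.approximatesLinearOn_iff_lipschitzOnWith, lipschitzOnWith_univ]
    apply lipschitzWith_of_nnnorm_fderiv_le (𝕜 := ℝ) (fun y => (hder y).differentiableAt)
    intro y
    rw [(hder y).fderiv, ← NNReal.coe_le_coe, Real.coe_toNNReal _ (by positivity)]
    rw [coe_nnnorm, norm_neg]
    exact hε y
  refine ⟨happ.toHomeomorph _ (Or.inr ?_), fun y => rfl⟩
  rw [← NNReal.coe_lt_coe, NNReal.coe_inv]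
  have hpos : 0 < ‖(f'.symm : E2 →L[ℝ] E2)‖ := by
    rw [norm_pos_iff]
    intro h
    have h1 : f'.symm (f' (EuclideanSpace.single 0 1)) = (EuclideanSpace.single 0 1 : E2) := f'.symm_apply_apply _
    have h2 : f'.symm (f' (EuclideanSpace.single 0 1)) = (f'.symm : E2 →L[ℝ] E2) (f' (EuclideanSpace.single 0 1)) := rfl
    rw [h2, h] at h1
    have h3 := congrArg (fun z : E2 => z 0) h1
    simp at h3
  rw [coe_nnnorm, Real.coe_toNNReal _ (by positivity), lt_inv_comm₀ (by positivity) hpos]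
  refine lt_of_le_of_lt hsymm ?_
  rw [inv_div, one_div, div_eq_mul_inv]
  have : 0 < m⁻¹ := by positivity
  linarith

/-- **LC-I4** -/
theorem lc_inv (hψ : ContDiff ℝ ∞ ψ) {H₀ : E2 →L[ℝ] E2} {m : ℝ} (hm : 0 < m)
    (h0 : ∀ a, m * ‖a‖ ^ 2 ≤ ⟪H₀ a, a⟫_ℝ) (hε : ∀ y, ‖hs ψ y - H₀‖ ≤ m / 2) :
    ∃ Y : E2 → E2, ContDiff ℝ ∞ Y ∧ (∀ y, Y (-gradient ψ y) = y) ∧ ∀ v, -gradient ψ (Y v) = v := by
  obtain ⟨e, he⟩ := lc_homeo hψ hm h0 hε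
  have hfun : (e : E2 → E2) = fun y => -gradient ψ y := funext he
  choose A' hA' _ using fun y => lc_equiv_of_coercive (hs ψ y) (half_pos hm) (lc_coercive_pert h0 (hε y))
  have hder : ∀ y, HasFDerivAt e (((A' y).trans (ContinuousLinearEquiv.neg ℝ) : E2 ≃L[ℝ] E2) : E2 →L[ℝ] E2) y := by
    intro y
    have e1 : (((A' y).trans (ContinuousLinearEquiv.neg ℝ) : E2 ≃L[ℝ] E2) : E2 →L[ℝ] E2) = -hs ψ y := by
      ext1 a
      simp [← hA' y]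
    rw [e1, hfun]
    exact (hs_hasFDerivAt hψ y).neg
  refine ⟨e.symm, e.contDiff_symm hder ?_, fun y => ?_, fun v => ?_⟩
  · rw [hfun]; exact (hs_gradient_contDiff hψ).neg
  · rw [← he]; exact e.symm_apply_apply y
  · rw [← he]; exact e.apply_symm_apply v

/-- the Legendre transform (with signs adapted to `G = -∇ψ`). -/
noncomputable def lcLeg (ψ : E2 → ℝ) (Y : E2 → E2) (v : E2) : ℝ := - ⟪v, Y v⟫_ℝ - ψ (Y v)

variable {Y : E2 → E2}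

/-- **LC-I5** -/
theorem lcLeg_contDiff (hψ : ContDiff ℝ ∞ ψ) (hY : ContDiff ℝ ∞ Y) : ContDiff ℝ ∞ (lcLeg ψ Y) := by
  unfold lcLeg
  exact ((contDiff_id.inner ℝ hY).neg).sub (hψ.comp hY)

theorem lcLeg_grad (hψ : ContDiff ℝ ∞ ψ) (hY : ContDiff ℝ ∞ Y) (hinv : ∀ v, -gradient ψ (Y v) = v) (v : E2) :
    HasGradientAt (lcLeg ψ Y) (-Y v) v := by
  have hYd : HasFDerivAt Y (fderiv ℝ Y v) v := ((hY.differentiable (by simp)) v).hasFDerivAt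
  have h1 := ((hasFDerivAt_id v).inner ℝ hYd).neg
  have h2 := ((hs_hasGradientAt hψ (Y v)).hasFDerivAt).comp v hYd
  have h3 := h1.sub h2
  rw [hasGradientAt_iff_hasFDerivAt]
  refine h3.congr_fderiv ?_
  ext1 a
  have hg : gradient ψ (Y v) = -v := by
    have := hinv v
    rw [neg_eq_iff_eq_neg] at this
    exact this
  simp [hg, real_inner_comm]

theorem lcLeg_hs (hψ : ContDiff ℝ ∞ ψ) (hY : ContDiff ℝ ∞ Y) (hinv : ∀ v, -gradient ψ (Y v) = v) (v : E2) :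
    hs (lcLeg ψ Y) v = -fderiv ℝ Y v := by
  rw [hs_of_grad (lcLeg_grad hψ hY hinv)]
  exact fderiv_fun_neg

theorem lcLeg_hs_inv (hψ : ContDiff ℝ ∞ ψ) (hY : ContDiff ℝ ∞ Y) (hinv : ∀ v, -gradient ψ (Y v) = v)
    (v a : E2) : hs ψ (Y v) (hs (lcLeg ψ Y) v a) = a := by
  rw [lcLeg_hs hψ hY hinv]
  have hYd : HasFDerivAt Y (fderiv ℝ Y v) v := ((hY.differentiable (by simp)) v).hasFDerivAt
  have h1 := ((hs_hasFDerivAt hψ (Y v)).comp v hYd).neg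
  have h2 : (-(gradient ψ ∘ Y)) = id := by
    funext w; exact hinv w
  rw [h2] at h1
  have h3 := h1.unique (hasFDerivAt_id v)
  have h4 := congrArg (fun L : E2 →L[ℝ] E2 => L a) h3
  simpa using h4

theorem lcLeg_phase (hψ : ContDiff ℝ ∞ ψ) (hY : ContDiff ℝ ∞ Y) (hinv : ∀ v, -gradient ψ (Y v) = v)
    (c : ℝ) (x v : E2) : lcPhase (lcLeg ψ Y) c x v = ⟪x, Y v⟫_ℝ + c * ψ (Y v) := by
  unfold lcPhase
  rw [(lcLeg_grad hψ hY hinv v).gradient]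
  simp only [lcLeg, inner_neg_right, inner_sub_left, inner_smul_left]
  simp
  ring

end Claimed.Agent.R254.Loc
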