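import Claimed.Agent.R254.Loc.Hess

/-!
# Row 254, END254-A: `lcPhase X`, `lcZeta X` are in the phase class of `OSC`; the amplitude      (architect helper31)

Leaves (Mathlib only):
* **LC-P1** `lc_dpZ` (`dpZ (lcZeta X) q = - hs X q.1`: derivative of a continuous linear map), `lc_zeta_smooth` (`ContDiff.clm_apply`).
* **LC-P2** `lc_phase_grad`: `∂_v [-(x - c v)·∇X(v) - c X(v)] = -D²X(v)(x - c v)` (product rule `HasFDerivAt.inner`, symmetry `hs_symm`).
* **LC-P3** `lc_dpZ_bound`: `iteratedFDeriv j (F ∘ fst)` = `(iteratedFDeriv j F).compContinuousLinearMap fst` (`ContinuousLinearMap.iteratedFDeriv_comp_right`),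
  `ContinuousMultilinearMap.norm_compContinuousLinearMap_le`, `‖fst‖ ≤ 1`; `iteratedFDeriv_neg`.
* **LC-P4** `lc_bdd_of_const_off`: on the complement of the compact set `F` is locally constant; on the compact set the continuous function `‖iteratedFDeriv j F‖` is bounded.
* **LC-P5** `lc_amp_exists`: `ContDiffBump (0 : E2)` with `rIn = Rb`, `rOut = Rb + 1`; derivatives of `v ↦ (γ v : ℂ)` are continuous with compact support.
-/

set_option autoImplicit false

namespace Claimed.Agent.R254.Loc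

open MeasureTheory Claimed.Agent.R255.Osc
open scoped ContDiff InnerProductSpace Topology

variable {X : E2 → ℝ}

/-- **LC-P1** -/
theorem lc_dpZ (X : E2 → ℝ) (q : E2 × E2) : dpZ (lcZeta X) q = - hs X q.1 := by
  unfold dpZ
  have : lcZeta X q.1 = ⇑(-hs X q.1) := by
    funext p; simp [lcZeta]
  rw [this]
  exact ContinuousLinearMap.fderiv _

theorem lc_zeta_smooth (hX : ContDiff ℝ ∞ X) : ContDiff ℝ ∞ (fun q : E2 × E2 => lcZeta X q.1 q.2) := by
  unfold lcZeta
  exact (((hs_contDiff hX).comp contDiff_fst).clm_apply contDiff_snd).neg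

/-- **LC-P2** -/
theorem lc_phase_grad (hX : ContDiff ℝ ∞ X) (c : ℝ) (x v : E2) :
    HasGradientAt (fun v => lcPhase X c x v) (lcZeta X v (x - c • v)) v := by
  have h1 : HasFDerivAt (fun v : E2 => x - c • v) (-(c • ContinuousLinearMap.id ℝ E2)) v :=
    ((hasFDerivAt_id v).const_smul c).const_sub x
  have h2 := (h1.inner ℝ (hs_hasFDerivAt hX v)).neg
  have h3 := ((hs_hasGradientAt hX v).hasFDerivAt).const_mul c
  have h4 := h2.sub h3
  rw [hasGradientAt_iff_hasFDerivAt]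
  refine h4.congr_fderiv ?_
  ext1 a
  have e1 : ⟪hs X v (x - c • v), a⟫_ℝ = ⟪x - c • v, hs X v a⟫_ℝ := hs_symm hX v (x - c • v) a
  have e2 : ⟪a, gradient X v⟫_ℝ = ⟪gradient X v, a⟫_ℝ := real_inner_comm _ _
  simp only [lcZeta, InnerProductSpace.toDual_apply_apply, inner_neg_left, e1]
  simp

/-- **LC-P3** -/
theorem lc_dpZ_bound (hX : ContDiff ℝ ∞ X) (j : ℕ) (q : E2 × E2) :
    ‖iteratedFDeriv ℝ j (dpZ (lcZeta X)) q‖ ≤ ‖iteratedFDeriv ℝ j (hs X) q.1‖ := by
  have e1 : dpZ (lcZeta X) = -(hs X ∘ (ContinuousLinearMap.fst ℝ E2 E2)) := by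
    funext q; rw [lc_dpZ]; rfl
  rw [e1, iteratedFDeriv_neg_apply, norm_neg,
    (ContinuousLinearMap.fst ℝ E2 E2).iteratedFDeriv_comp_right (hs_contDiff hX) q (i := j)
      (by exact_mod_cast le_top)]
  refine (ContinuousMultilinearMap.norm_compContinuousLinearMap_le _ _).trans ?_
  have : ∏ _i : Fin j, ‖ContinuousLinearMap.fst ℝ E2 E2‖ ≤ 1 :=
    Finset.prod_le_one (fun _ _ => norm_nonneg _) (fun _ _ => ContinuousLinearMap.norm_fst_le _ _ _)
  calc _ ≤ ‖iteratedFDeriv ℝ j (hs X) q.1‖ * 1 := by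
        gcongr
        exact le_of_eq rfl
    _ = _ := mul_one _

/-- **LC-P4** -/
theorem lc_bdd_of_const_off {F : E2 → E2 →L[ℝ] E2} (hF : ContDiff ℝ ∞ F) {Kv : Set E2} (hK : IsCompact Kv)
    (L : E2 →L[ℝ] E2) (h : ∀ v, v ∉ Kv → F v = L) (j : ℕ) : ∃ C : ℝ, ∀ v, ‖iteratedFDeriv ℝ j F v‖ ≤ C := by
  have hc : Continuous (iteratedFDeriv ℝ j F) := hF.continuous_iteratedFDeriv (by exact_mod_cast le_top)
  obtain ⟨C, hC⟩ := hK.exists_bound_of_continuousOn hc.continuousOn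
  refine ⟨max C ‖L‖, fun v => ?_⟩
  by_cases hv : v ∈ Kv
  · exact (hC v hv).trans (le_max_left _ _)
  · refine le_trans ?_ (le_max_right _ _)
    have he : F =ᶠ[𝓝 v] fun _ => L := by
      filter_upwards [hK.isClosed.isOpen_compl.mem_nhds hv] with w hw
      exact h w hw
    rw [(Filter.EventuallyEq.iteratedFDeriv ℝ he j).eq_of_nhds]
    rcases Nat.eq_zero_or_pos j with rfl | hj
    · rw [norm_iteratedFDeriv_zero]
    · rw [iteratedFDeriv_const_of_ne hj.ne']
      simp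

/-- **LC-P5** -/
theorem lc_amp_exists {Rb : ℝ} (hRb : 0 < Rb) : ∃ (γ : E2 → ℝ) (Bb : ℕ → ℝ), (∀ v, ‖v‖ ≤ Rb → γ v = 1) ∧
    ∀ Kb : OscBd, Kb.Rx = 1 → Kb.Rv = Rb + 1 → Kb.Bb = Bb → IsAmp Kb (lcAmp γ) := by
  let b : ContDiffBump (0 : E2) := ⟨Rb, Rb + 1, hRb, by linarith⟩
  have hsm : ContDiff ℝ ∞ (fun v : E2 => ((b v : ℝ) : ℂ)) :=
    Complex.ofRealCLM.contDiff.comp b.contDiff
  have hcs : HasCompactSupport (fun v : E2 => ((b v : ℝ) : ℂ)) := by
    have := b.hasCompactSupport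
    exact this.comp_left (g := fun t : ℝ => (t : ℂ)) (by simp)
  have hbd : ∀ j : ℕ, ∃ C : ℝ, ∀ v, ‖iteratedFDeriv ℝ j (fun v : E2 => ((b v : ℝ) : ℂ)) v‖ ≤ C := by
    intro j
    have hc : Continuous (iteratedFDeriv ℝ j (fun v : E2 => ((b v : ℝ) : ℂ))) :=
      hsm.continuous_iteratedFDeriv (by exact_mod_cast le_top)
    exact hc.bounded_above_of_compact_support (hcs.iteratedFDeriv j)
  choose C hC using hbd
  refine ⟨b, fun j => max (C j) 0, fun v hv => ?_, fun Kb h1 h2 h3 => ⟨?_, ?_, ?_⟩⟩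
  · apply b.one_of_mem_closedBall
    simpa using hv
  · intro c x v hne
    unfold lcAmp at hne
    split_ifs at hne with hcx
    · refine ⟨hcx.1, by rw [h1]; exact hcx.2, ?_⟩
      rw [h2]
      have hv : b v ≠ 0 := by
        intro h0; apply hne; simp [h0]
      have : v ∈ Function.support b := hv
      rw [b.support_eq] at this
      have h' : ‖v‖ < Rb + 1 := by simpa using this
      exact h'.le
    · exact absurd rfl hne
  · intro c x
    by_cases hcx : c ∈ Set.Icc (0 : ℝ) 1 ∧ ‖x‖ ≤ 1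
    · have : lcAmp b c x = fun v : E2 => ((b v : ℝ) : ℂ) := by
        funext v; simp only [lcAmp, if_pos hcx]
      rw [this]; exact hsm
    · have : lcAmp b c x = fun _ : E2 => (0 : ℂ) := by
        funext v; simp only [lcAmp, if_neg hcx]
      rw [this]; exact contDiff_const
  · intro c x j v
    rw [h3]
    by_cases hcx : c ∈ Set.Icc (0 : ℝ) 1 ∧ ‖x‖ ≤ 1
    · have : lcAmp b c x = fun v : E2 => ((b v : ℝ) : ℂ) := by
        funext v; simp only [lcAmp, if_pos hcx]
      rw [this]; exact (hC j v).trans (le_max_left _ _)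
    · have : lcAmp b c x = fun _ : E2 => (0 : ℂ) := by
        funext v; simp only [lcAmp, if_neg hcx]
      rw [this]
      have e0 : iteratedFDeriv ℝ j (fun _ : E2 => (0 : ℂ)) v = 0 := by
        have := iteratedFDeriv_fun_zero (𝕜 := ℝ) (E := E2) (F := ℂ) (n := j)
        exact congrFun this v
      rw [e0, norm_zero]
      exact le_max_right _ _

/-- glue. -/
theorem lc_isPhase (hX : ContDiff ℝ ∞ X) (Kb : OscBd)
    (hdef : ∀ v a, Kb.a0 * ‖a‖ ^ 2 ≤ ⟪hs X v a, a⟫_ℝ ∧ ⟪hs X v a, a⟫_ℝ ≤ Kb.a1 * ‖a‖ ^ 2)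
    (hbd : ∀ j v, ‖iteratedFDeriv ℝ j (hs X) v‖ ≤ Kb.A j) : IsPhase Kb (lcPhase X) (lcZeta X) where
  smooth := lc_zeta_smooth hX
  grad := fun c _ x v => lc_phase_grad hX c x v
  symm := fun q a b => by
    rw [lc_dpZ]
    simp only [neg_apply, inner_neg_left, inner_neg_right, hs_symm hX]
  definite := ⟨-1, Or.inr rfl, fun q a => by
    rw [lc_dpZ]
    simp only [neg_apply, inner_neg_left, neg_mul_neg, one_mul]
    exact hdef q.1 a⟩
  bound := fun j q => (lc_dpZ_bound hX j q).trans (hbd j q.1)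

end Claimed.Agent.R254.Loc
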