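import Claimed.Agent.R254.Loc.Cut
import Claimed.Agent.R254.Loc.Inv
import Claimed.Agent.R254.Loc.Phase

/-!
# Row 254, END254-A: existence of the local data `LcData φ N` near an elliptic point      (architect helper31)

Pure glue of `Hess`, `Cut`, `Inv`, `Phase`.
-/

set_option autoImplicit false

namespace Claimed.Agent.R254.Loc

open MeasureTheory Claimed.Agent.R255.Osc
open scoped ContDiff InnerProductSpace Topology

variable {φ : E2 → ℝ}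

theorem lc_data_exists (hφ : ContDiff ℝ ∞ φ) (y₀ : E2)
    (hpos : ∀ v : E2, v ≠ 0 → 0 < iteratedFDeriv ℝ 2 φ y₀ (fun _ => v)) :
    ∃ r : ℝ, 0 < r ∧ Nonempty (LcData φ (Metric.ball y₀ r)) := by
  obtain ⟨m, hm, hm0⟩ := lc_pos_def hφ y₀ hpos
  obtain ⟨r, hr, ψ, hψ, hψφ, hψε, hψoff⟩ := lc_cut hφ y₀ (ε := m / 2) (by positivity)
  obtain ⟨Y, hY, hYl, hYr⟩ := lc_inv hψ hm hm0 hψε
  have hX : ContDiff ℝ ∞ (lcLeg ψ Y) := lcLeg_contDiff hψ hY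
  have hM : ∀ y, ‖hs ψ y‖ ≤ ‖hs φ y₀‖ + m / 2 := by
    intro y
    calc ‖hs ψ y‖ = ‖hs φ y₀ + (hs ψ y - hs φ y₀)‖ := by rw [add_sub_cancel]
      _ ≤ ‖hs φ y₀‖ + ‖hs ψ y - hs φ y₀‖ := norm_add_le _ _
      _ ≤ _ := by gcongr; exact hψε y
  have hMpos : 0 < ‖hs φ y₀‖ + m / 2 := by positivity
  have hdef : ∀ v a, m / 2 / (‖hs φ y₀‖ + m / 2) ^ 2 * ‖a‖ ^ 2 ≤ ⟪hs (lcLeg ψ Y) v a, a⟫_ℝ ∧
      ⟪hs (lcLeg ψ Y) v a, a⟫_ℝ ≤ 1 / (m / 2) * ‖a‖ ^ 2 := fun v a =>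
    lc_inv_bounds (lcLeg_hs_inv hψ hY hYr v) (half_pos hm) (lc_coercive_pert hm0 (hψε _)) (hM _) a
  have hKv : IsCompact ((fun y => -gradient ψ y) '' Metric.closedBall y₀ (2 * r)) :=
    (isCompact_closedBall _ _).image (hs_gradient_contDiff hψ).continuous.neg
  set Kv := (fun y => -gradient ψ y) '' Metric.closedBall y₀ (2 * r) with hKv_def
  have hmemK : ∀ v, Y v ∈ Metric.closedBall y₀ (2 * r) → v ∈ Kv := fun v hv => ⟨Y v, hv, hYr v⟩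
  obtain ⟨H', hH', -⟩ := lc_equiv_of_coercive (hs φ y₀) hm hm0
  have hoff : ∀ v, v ∉ Kv → hs (lcLeg ψ Y) v = (H'.symm : E2 →L[ℝ] E2) := by
    intro v hv
    ext1 a
    have h1 := lcLeg_hs_inv hψ hY hYr v a
    rw [hψoff (Y v) (fun h => hv (hmemK v h)), ← hH'] at h1
    have h2 : H' (hs (lcLeg ψ Y) v a) = a := h1
    rw [ContinuousLinearEquiv.coe_coe, ← h2, ContinuousLinearEquiv.symm_apply_apply, h2]
  choose A hA using fun j => lc_bdd_of_const_off (hs_contDiff hX) hKv _ hoff j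
  obtain ⟨Rb, hRb0, hRb⟩ : ∃ Rb : ℝ, 0 < Rb ∧ ∀ v ∈ Kv, ‖v‖ ≤ Rb := by
    obtain ⟨R, hR⟩ := hKv.isBounded.exists_norm_le
    exact ⟨|R| + 1, by positivity, fun v hv => (hR v hv).trans (by linarith [le_abs_self R])⟩
  obtain ⟨γ, Bb, hγ1, hγ⟩ := lc_amp_exists hRb0
  obtain ⟨J, hJ⟩ : ∃ J : ℝ, ∀ v ∈ Kv, |(fderiv ℝ Y v).det| ≤ J := by
    have hc : Continuous fun v => (fderiv ℝ Y v).det :=
      ContinuousLinearMap.continuous_det.comp (hY.continuous_fderiv (by simp))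
    obtain ⟨J, hJ⟩ := hKv.exists_bound_of_continuousOn hc.continuousOn
    exact ⟨J, fun v hv => by simpa using hJ v hv⟩
  have hBK : ∀ v ∈ Y ⁻¹' Metric.ball y₀ r, v ∈ Kv := fun v hv =>
    hmemK v (Metric.ball_subset_closedBall (Metric.ball_subset_ball (by linarith) hv))
  refine ⟨r, hr, ⟨{
    Kb := ⟨m / 2 / (‖hs φ y₀‖ + m / 2) ^ 2, 1 / (m / 2), A, Bb, Rb + 1, 1⟩
    a0_pos := by positivity
    Rx_eq := rfl
    Φ := lcPhase (lcLeg ψ Y)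
    ζ := lcZeta (lcLeg ψ Y)
    phase := lc_isPhase hX _ hdef hA
    γ := γ
    amp := hγ _ rfl rfl rfl
    Bv := Y ⁻¹' Metric.ball y₀ r
    Bv_meas := (Metric.isOpen_ball.preimage hY.continuous).measurableSet
    Bv_sub := fun v hv => (hRb v (hBK v hv)).trans (by simp)
    γ_one := fun v hv => hγ1 v (hRb v (hBK v hv))
    Y := Y
    Y' := fderiv ℝ Y
    hY' := fun v _ => ((hY.differentiable (by simp)) v).hasFDerivAt.hasFDerivWithinAt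
    inj := fun v _ w _ hvw => by rw [← hYr v, ← hYr w, hvw]
    img := Set.image_preimage_eq _ (fun y => ⟨_, hYl y⟩)
    J := J
    det_le := fun v hv => hJ v (hBK v hv)
    Φ_eq := fun c x v hv => by rw [lcLeg_phase hψ hY hYr, hψφ (Y v) hv] }⟩⟩

end Claimed.Agent.R254.Loc
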