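import Claimed.Agent.R255.Osc.Contract
import Claimed.Prelude.Def_0422

/-!
# Row 254 (S0494), END254-A: the local estimate `LOC` from `OSC` (BR Thm 12.1).  Definitions.      (architect helper31)   -- KEEP

`E2 = ℝ²`, `E3 = ℝ³`.  Output variables are written `q = (t, x) : ℝ × E2` (TIME FIRST, as in `R255.Osc`).

* `lcT φ F (t,x) = ∫ e^{2π i (x·y + t φ(y))} F(y) dy`  (Lebesgue measure);
* `lcF φ K f = 1_K √(1+|∇φ|²) f`, `lcSplit x = (x₂, (x₀,x₁))`: `graphExtension φ K f x = lcT φ (lcF φ K f) (lcSplit x)`;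
* `LocEst φ S`: `‖lcT φ F‖_{L³([-R,R] × B̄_R)} ≤ C R^ν ‖F‖₃` for `F ∈ L³ ∩ L¹` vanishing off `S`;
* `LOC φ K`: the exit contract (consumer: END254-B, helper65);
* `hs φ y = D(∇φ)(y)`: the Hessian operator;
* `LcData φ N`: everything the scaling argument needs on a small open set `N`: a GLOBAL phase `Φ` of the class of `OSC` and a diffeomorphism
  `Y : Bv → N` (the inverse of `y ↦ -∇φ(y)`) with `Φ(c,x,v) = x·Y(v) + c φ(Y(v))` on `Bv`.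
-/

set_option autoImplicit false

namespace Claimed.Agent.R254.Loc

open MeasureTheory Claims.C0422 Claimed.Agent.R255.Osc
open scoped ContDiff InnerProductSpace

/-- three-space -/
abbrev E3 : Type := EuclideanSpace ℝ (Fin 3)

/-- the extension operator with respect to Lebesgue measure; output variable `(t,x)`. -/
noncomputable def lcT (φ : E2 → ℝ) (F : E2 → ℂ) (q : ℝ × E2) : ℂ :=
  ∫ y : E2, Complex.exp (2 * Real.pi * Complex.I * ((⟪q.2, y⟫_ℝ + q.1 * φ y : ℝ) : ℂ)) * F y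

/-- the density of the surface measure. -/
noncomputable def lcW (φ : E2 → ℝ) (y : E2) : ℝ := Real.sqrt (1 + ‖fderiv ℝ φ y‖ ^ 2)

/-- the input with the density and the indicator of `K` absorbed. -/
noncomputable def lcF (φ : E2 → ℝ) (K : Set E2) (f : E2 → ℂ) : E2 → ℂ :=
  K.indicator (fun y => (lcW φ y : ℂ) * f y)

/-- `ℝ³ → ℝ × ℝ²`, `x ↦ (x₂, (x₀, x₁))`. -/
noncomputable def lcSplit (x : E3) : ℝ × E2 := (x 2, !₂[x 0, x 1])

/-- the box `[-R,R] × B̄(0,R)`. -/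
def lcBox (R : ℝ) : Set (ℝ × E2) := Set.Icc (-R) R ×ˢ Metric.closedBall 0 R

/-- local extension estimate for inputs vanishing off `S`. -/
def LocEst (φ : E2 → ℝ) (S : Set E2) : Prop :=
  ∀ ν : ℝ, 0 < ν → ∃ C : ℝ, ∀ R : ℝ, 1 ≤ R → ∀ F : E2 → ℂ, MemLp F 3 volume → Integrable F volume →
    (∀ y, F y ≠ 0 → y ∈ S) →
    eLpNorm (lcT φ F) 3 (volume.restrict (lcBox R)) ≤ ENNReal.ofReal (C * R ^ ν) * eLpNorm F 3 volume

/-- **the exit contract of END254-A**. -/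
def LOC (φ : E2 → ℝ) (K : Set E2) : Prop :=
  ∀ ν : ℝ, 0 < ν → ∃ C : ℝ, ∀ R : ℝ, 1 ≤ R → ∀ f : E2 → ℂ,
    eLpNorm (graphExtension φ K f) 3 (volume.restrict (Metric.ball 0 R)) ≤
      ENNReal.ofReal (C * R ^ ν) * eLpNorm f 3 (graphSurfaceMeasure φ K)

/-- the Hessian operator `D(∇φ)(y)`. -/
noncomputable def hs (φ : E2 → ℝ) (y : E2) : E2 →L[ℝ] E2 := fderiv ℝ (gradient φ) y

/-- the amplitude `1_{[0,1]}(c) 1_{|x| ≤ 1} γ(v)`. -/
noncomputable def lcAmp (γ : E2 → ℝ) (c : ℝ) (x v : E2) : ℂ :=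
  open Classical in if c ∈ Set.Icc (0 : ℝ) 1 ∧ ‖x‖ ≤ 1 then (γ v : ℂ) else 0

/-- the phase `Φ(c,x,v) = - (x - c v)·∇X(v) - c X(v)` of a potential `X`. -/
noncomputable def lcPhase (X : E2 → ℝ) (c : ℝ) (x v : E2) : ℝ :=
  - ⟪x - c • v, gradient X v⟫_ℝ - c * X v

/-- `ζ(v,p) = - D²X(v) p`. -/
noncomputable def lcZeta (X : E2 → ℝ) (v p : E2) : E2 := - hs X v p

/-- local data on the open set `N`. -/
structure LcData (φ : E2 → ℝ) (N : Set E2) where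
  Kb : OscBd
  a0_pos : 0 < Kb.a0
  Rx_eq : Kb.Rx = 1
  Φ : ℝ → E2 → E2 → ℝ
  ζ : E2 → E2 → E2
  phase : IsPhase Kb Φ ζ
  γ : E2 → ℝ
  amp : IsAmp Kb (lcAmp γ)
  Bv : Set E2
  Bv_meas : MeasurableSet Bv
  Bv_sub : ∀ v ∈ Bv, ‖v‖ ≤ Kb.Rv
  γ_one : ∀ v ∈ Bv, γ v = 1
  Y : E2 → E2
  Y' : E2 → E2 →L[ℝ] E2
  hY' : ∀ v ∈ Bv, HasFDerivWithinAt Y (Y' v) Bv v
  inj : Set.InjOn Y Bv
  img : Y '' Bv = N
  J : ℝ
  det_le : ∀ v ∈ Bv, |(Y' v).det| ≤ J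
  Φ_eq : ∀ (c : ℝ) (x : E2), ∀ v ∈ Bv, Φ c x v = ⟪x, Y v⟫_ℝ + c * φ (Y v)

end Claimed.Agent.R254.Loc
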