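import Claimed.Agent.R254.Loc.Defs

/-!
# Row 254, END254-A: API of the Hessian operator `hs φ y = D(∇φ)(y)`      (architect helper31)

Everything for `φ : E2 → ℝ` of class `C^∞`.  Leaves (Mathlib only):
* **LC-H1** `hs_gradient_contDiff`, `hs_contDiff`, `hs_hasGradientAt`, `hs_hasFDerivAt`, `hs_of_grad`, `hs_congr`, `hs_add`, `hs_sub`
  (`gradient φ = (InnerProductSpace.toDual ℝ E2).symm ∘ fderiv ℝ φ`, a continuous linear isometry equivalence after `fderiv`).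
* **LC-H2** `hs_inner`, `hs_symm`, `hs_norm` (`iteratedFDeriv_two_apply`, `ContDiffAt.isSymmSndFDerivAt`/`second_derivative_symmetric`, `norm_iteratedFDeriv_fderiv`, `LinearIsometryEquiv.norm_map`).
* **LC-H3** `lc_pos_def` (compactness of the unit sphere, homogeneity).
-/

set_option autoImplicit false

namespace Claimed.Agent.R254.Loc

open MeasureTheory Claimed.Agent.R255.Osc
open scoped ContDiff InnerProductSpace Topology

variable {φ ψ : E2 → ℝ}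

/-- **LC-H1** -/
theorem hs_gradient_contDiff (hφ : ContDiff ℝ ∞ φ) : ContDiff ℝ ∞ (gradient φ) := by
  have h1 : ContDiff ℝ ∞ (fderiv ℝ φ) := hφ.fderiv_right (m := ∞) (by simp)
  exact (InnerProductSpace.toDual ℝ E2).symm.contDiff.comp h1

theorem hs_contDiff (hφ : ContDiff ℝ ∞ φ) : ContDiff ℝ ∞ (hs φ) :=
  (hs_gradient_contDiff hφ).fderiv_right (m := ∞) (by simp)

theorem hs_hasGradientAt (hφ : ContDiff ℝ ∞ φ) (y : E2) : HasGradientAt φ (gradient φ y) y :=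
  ((hφ.differentiable (by simp)) y).hasGradientAt

theorem hs_hasFDerivAt (hφ : ContDiff ℝ ∞ φ) (y : E2) : HasFDerivAt (gradient φ) (hs φ y) y :=
  (((hs_gradient_contDiff hφ).differentiable (by simp)) y).hasFDerivAt

theorem hs_of_grad {g : E2 → E2} (h : ∀ y, HasGradientAt φ (g y) y) : hs φ = fderiv ℝ g := by
  have : gradient φ = g := funext fun y => (h y).gradient
  funext y
  unfold hs
  rw [this]

theorem hs_congr {y : E2} (h : φ =ᶠ[𝓝 y] ψ) : hs φ y = hs ψ y := by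
  unfold hs
  apply Filter.EventuallyEq.fderiv_eq
  have := h.fderiv (𝕜 := ℝ)
  filter_upwards [this] with z hz
  unfold gradient
  rw [hz]

theorem hs_add (hφ : ContDiff ℝ ∞ φ) (hψ : ContDiff ℝ ∞ ψ) (y : E2) :
    hs (fun z => φ z + ψ z) y = hs φ y + hs ψ y := by
  have h := hs_of_grad (φ := fun z => φ z + ψ z) (g := fun z => gradient φ z + gradient ψ z)
    (fun z => by
      have h1 := (hs_hasGradientAt hφ z).hasFDerivAt
      have h2 := (hs_hasGradientAt hψ z).hasFDerivAt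
      rw [hasGradientAt_iff_hasFDerivAt, map_add]
      exact h1.add h2)
  rw [h]
  exact ((hs_hasFDerivAt hφ y).add (hs_hasFDerivAt hψ y)).fderiv

theorem hs_sub (hφ : ContDiff ℝ ∞ φ) (hψ : ContDiff ℝ ∞ ψ) (y : E2) :
    hs (fun z => φ z - ψ z) y = hs φ y - hs ψ y := by
  have h := hs_of_grad (φ := fun z => φ z - ψ z) (g := fun z => gradient φ z - gradient ψ z)
    (fun z => by
      have h1 := (hs_hasGradientAt hφ z).hasFDerivAt
      have h2 := (hs_hasGradientAt hψ z).hasFDerivAt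
      rw [hasGradientAt_iff_hasFDerivAt, map_sub]
      exact h1.sub h2)
  rw [h]
  exact ((hs_hasFDerivAt hφ y).sub (hs_hasFDerivAt hψ y)).fderiv

theorem hs_zero (y : E2) : hs (fun _ => (0 : ℝ)) y = 0 := by
  have h := hs_of_grad (φ := fun _ : E2 => (0 : ℝ)) (g := fun _ => (0 : E2))
    (fun z => by
      rw [hasGradientAt_iff_hasFDerivAt, map_zero]
      exact hasFDerivAt_const _ _)
  rw [h]
  simp

theorem hs_eq_comp (hφ : ContDiff ℝ ∞ φ) (y : E2) :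
    hs φ y = ((InnerProductSpace.toDual ℝ E2).symm.toLinearIsometry.toContinuousLinearMap).comp
      (fderiv ℝ (fderiv ℝ φ) y) := by
  have h1 : ContDiff ℝ ∞ (fderiv ℝ φ) := hφ.fderiv_right (m := ∞) (by simp)
  have h2 : HasFDerivAt (fderiv ℝ φ) (fderiv ℝ (fderiv ℝ φ) y) y := ((h1.differentiable (by simp)) y).hasFDerivAt
  have h3 := ((InnerProductSpace.toDual ℝ E2).symm.toLinearIsometry.toContinuousLinearMap).hasFDerivAt.comp y h2
  exact h3.fderiv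

/-- **LC-H2** -/
theorem hs_inner (hφ : ContDiff ℝ ∞ φ) (y a b : E2) :
    ⟪hs φ y a, b⟫_ℝ = iteratedFDeriv ℝ 2 φ y ![a, b] := by
  rw [iteratedFDeriv_two_apply, hs_eq_comp hφ]
  simp [InnerProductSpace.toDual_symm_apply]

theorem hs_symm (hφ : ContDiff ℝ ∞ φ) (y a b : E2) : ⟪hs φ y a, b⟫_ℝ = ⟪a, hs φ y b⟫_ℝ := by
  rw [real_inner_comm (hs φ y b) a, hs_inner hφ, hs_inner hφ, iteratedFDeriv_two_apply, iteratedFDeriv_two_apply]
  have hs : IsSymmSndFDerivAt ℝ φ y := (hφ.contDiffAt).isSymmSndFDerivAt (by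
    rw [minSmoothness_of_isRCLikeNormedField]
    exact WithTop.coe_le_coe.2 (le_top : (2 : ℕ∞) ≤ ⊤))
  simpa using hs.eq a b

theorem hs_norm (hφ : ContDiff ℝ ∞ φ) (y : E2) : ‖hs φ y‖ = ‖iteratedFDeriv ℝ 2 φ y‖ := by
  rw [hs_eq_comp hφ, LinearIsometry.norm_toContinuousLinearMap_comp, ← norm_iteratedFDeriv_fderiv,
    norm_iteratedFDeriv_one]

/-- **LC-H3** -/
theorem lc_pos_def (hφ : ContDiff ℝ ∞ φ) (y₀ : E2)
    (hpos : ∀ v : E2, v ≠ 0 → 0 < iteratedFDeriv ℝ 2 φ y₀ (fun _ => v)) :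
    ∃ m : ℝ, 0 < m ∧ ∀ a : E2, m * ‖a‖ ^ 2 ≤ ⟪hs φ y₀ a, a⟫_ℝ := by
  have hq : ∀ a : E2, a ≠ 0 → 0 < ⟪hs φ y₀ a, a⟫_ℝ := by
    intro a ha
    rw [hs_inner hφ]
    have e : (![a, a] : Fin 2 → E2) = fun _ => a := by
      funext i; fin_cases i <;> rfl
    rw [e]; exact hpos a ha
  have hcont : Continuous fun a : E2 => ⟪hs φ y₀ a, a⟫_ℝ := by fun_prop
  have hcomp : IsCompact (Metric.sphere (0 : E2) 1) := isCompact_sphere _ _
  have hne : (Metric.sphere (0 : E2) 1).Nonempty := by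
    exact NormedSpace.sphere_nonempty.2 zero_le_one
  obtain ⟨a0, ha0, hmin⟩ := hcomp.exists_isMinOn hne hcont.continuousOn
  have ha0' : a0 ≠ 0 := by
    intro h
    rw [h] at ha0
    simp at ha0
  refine ⟨⟪hs φ y₀ a0, a0⟫_ℝ, hq a0 ha0', fun a => ?_⟩
  by_cases ha : a = 0
  · simp [ha]
  · have hn : 0 < ‖a‖ := norm_pos_iff.2 ha
    have hu : (‖a‖⁻¹ • a) ∈ Metric.sphere (0 : E2) 1 := by
      rw [mem_sphere_zero_iff_norm, norm_smul, norm_inv, norm_norm, inv_mul_cancel₀ hn.ne']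
    have h1 : ⟪hs φ y₀ a0, a0⟫_ℝ ≤ ⟪hs φ y₀ (‖a‖⁻¹ • a), ‖a‖⁻¹ • a⟫_ℝ := hmin hu
    have h2 : ⟪hs φ y₀ a0, a0⟫_ℝ ≤ ‖a‖⁻¹ * (‖a‖⁻¹ * ⟪hs φ y₀ a, a⟫_ℝ) := by
      rw [map_smul, real_inner_smul_left, real_inner_smul_right] at h1
      exact h1
    have h3 : ‖a‖⁻¹ * (‖a‖⁻¹ * ⟪hs φ y₀ a, a⟫_ℝ) = ⟪hs φ y₀ a, a⟫_ℝ / ‖a‖ ^ 2 := by
      field_simp
    rw [h3, le_div_iff₀ (by positivity)] at h2
    exact h2

end Claimed.Agent.R254.Loc
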