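import Claimed.Agent.R254.Loc.Defs

/-!
# Row 254, END254-A: `OSC` + local data ⟹ `LocEst φ N`      (architect helper31)

`D : LcData φ N`, `R ≥ 1`, `lam = 4 π R`.  For `(t,x) ∈ [-R,R] × B̄_R` put `c = (t+R)/(2R) ∈ [0,1]`, `x' = x/(2R)`, `|x'| ≤ 1/2`:
`lcT φ F (t,x) = ∫_N e^{2π i (x·y + (t+R) φ(y))} G(y) dy`, `G = e^{-2π i R φ} F = lcMod φ R F`,
`= ∫_{Bv} e^{i lam (x'·Y(v) + c φ(Y v))} |det Y'(v)| G(Y v) dv = Elam lam Φ (lcAmp γ) (lcPull D G) (c, x')`.

Leaves (Mathlib only):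
* **LC-L2** `lc_pull_bound`: `lintegral_image_eq_lintegral_abs_det_fderiv_mul`, `integrableOn_image_iff_integrableOn_abs_det_fderiv_smul` (measurability of the pull back), `|det| ≤ J`.
* **LC-L3** `lc_T_eq_Elam`: `integral_image_eq_integral_abs_det_fderiv_smul`, `D.Φ_eq`, `D.γ_one`, `D.img`, exponent arithmetic.
* **LC-L4** `lc_scale`: the affine map `q ↦ ((q.1+R)/(2R), q.2/(2R))` multiplies `volume` on `ℝ × E2` (`finrank = 3`) by `(2R)³` (`Measure.map_addHaar_smul`, `measurePreserving_add_right`, homeomorphisms are measurable embeddings: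
  `MeasurableEmbedding.eLpNorm_map_measure`, `eLpNorm_smul_measure_of_ne_zero`).
* **LC-L5** `lc_mod_props`.
-/

set_option autoImplicit false

namespace Claimed.Agent.R254.Loc

open MeasureTheory Claims.C0422 Claimed.Agent.R255.Osc
open scoped ContDiff InnerProductSpace

variable {φ : E2 → ℝ} {N : Set E2}

/-- pull back of an input under `Y`, with the Jacobian. -/
noncomputable def lcPull (D : LcData φ N) (G : E2 → ℂ) : E2 → ℂ :=
  D.Bv.indicator (fun v => ((|(D.Y' v).det| : ℝ) : ℂ) * G (D.Y v))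

/-- modulation by `e^{-2π i R φ}` (time translation by `R`). -/
noncomputable def lcMod (φ : E2 → ℝ) (R : ℝ) (F : E2 → ℂ) (y : E2) : ℂ :=
  Complex.exp (-(2 * Real.pi * Complex.I * ((R * φ y : ℝ) : ℂ))) * F y

/-- **LC-L2** -/
theorem lc_pull_bound (D : LcData φ N) {G : E2 → ℂ} (h3 : MemLp G 3 volume) (h1 : Integrable G volume) :
    MemLp (lcPull D G) 3 volume ∧
      eLpNorm (lcPull D G) 3 volume ≤ ENNReal.ofReal (|D.J| + 1) * eLpNorm G 3 volume := by
  have hBm := D.Bv_meas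
  set g : E2 → ℂ := fun v => ((|(D.Y' v).det| : ℝ) : ℂ) * G (D.Y v) with hg
  have hgm : AEStronglyMeasurable g (volume.restrict D.Bv) := by
    have h := (integrableOn_image_iff_integrableOn_abs_det_fderiv_smul volume hBm D.hY' D.inj G).1
      h1.integrableOn
    refine h.aestronglyMeasurable.congr (Filter.Eventually.of_forall fun v => ?_)
    simp only [hg, Complex.real_smul]
  have hJ1 : (1 : ℝ) ≤ |D.J| + 1 := by have := abs_nonneg D.J; linarith
  have hnorm : eLpNorm g 3 (volume.restrict D.Bv) ≤ ENNReal.ofReal (|D.J| + 1) * eLpNorm G 3 volume := by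
    have h3n : (3 : ENNReal) ≠ 0 := by norm_num
    have h3' : (3 : ENNReal) ≠ ⊤ := by norm_num
    rw [eLpNorm_eq_lintegral_rpow_enorm_toReal h3n h3', eLpNorm_eq_lintegral_rpow_enorm_toReal h3n h3']
    have e3 : (3 : ENNReal).toReal = 3 := by norm_num
    rw [e3]
    have hle : ∫⁻ v in D.Bv, ‖g v‖ₑ ^ (3 : ℝ)
        ≤ ENNReal.ofReal (|D.J| + 1) ^ (3 : ℝ) * ∫⁻ y, ‖G y‖ₑ ^ (3 : ℝ) := by
      calc ∫⁻ v in D.Bv, ‖g v‖ₑ ^ (3 : ℝ)
          ≤ ∫⁻ v in D.Bv, ENNReal.ofReal (|D.J| + 1) ^ (3 : ℝ) *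
              (ENNReal.ofReal |(D.Y' v).det| * ‖G (D.Y v)‖ₑ ^ (3 : ℝ)) := by
            refine setLIntegral_mono' hBm fun v hv => ?_
            have a1 : ‖g v‖ₑ = ENNReal.ofReal |(D.Y' v).det| * ‖G (D.Y v)‖ₑ := by
              rw [hg, enorm_mul]
              congr 1
              rw [← ofReal_norm, Complex.norm_real, Real.norm_of_nonneg (abs_nonneg _)]
            have a2 : ENNReal.ofReal |(D.Y' v).det| ≤ ENNReal.ofReal (|D.J| + 1) :=
              ENNReal.ofReal_le_ofReal (((D.det_le v hv).trans (le_abs_self _)).trans (by linarith))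
            have a3 : (1 : ENNReal) ≤ ENNReal.ofReal (|D.J| + 1) := by
              rw [← ENNReal.ofReal_one]; exact ENNReal.ofReal_le_ofReal hJ1
            rw [a1, ENNReal.mul_rpow_of_nonneg _ _ (by norm_num)]
            have e : (3 : ℝ) = 2 + 1 := by norm_num
            have b1 : ENNReal.ofReal |(D.Y' v).det| ^ (3 : ℝ)
                ≤ ENNReal.ofReal (|D.J| + 1) ^ (3 : ℝ) * ENNReal.ofReal |(D.Y' v).det| := by
              have c1 : ENNReal.ofReal |(D.Y' v).det| ^ (3 : ℝ)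
                  = ENNReal.ofReal |(D.Y' v).det| ^ (2 : ℝ) * ENNReal.ofReal |(D.Y' v).det| := by
                rw [e, ENNReal.rpow_add_of_nonneg _ _ (by norm_num) (by norm_num), ENNReal.rpow_one]
              rw [c1]
              gcongr
              calc ENNReal.ofReal |(D.Y' v).det| ^ (2 : ℝ) ≤ ENNReal.ofReal (|D.J| + 1) ^ (2 : ℝ) := by gcongr
                _ ≤ ENNReal.ofReal (|D.J| + 1) ^ (3 : ℝ) := ENNReal.rpow_le_rpow_of_exponent_le a3 (by norm_num)
            calc _ ≤ (ENNReal.ofReal (|D.J| + 1) ^ (3 : ℝ) * ENNReal.ofReal |(D.Y' v).det|) *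
                  ‖G (D.Y v)‖ₑ ^ (3 : ℝ) := by gcongr
              _ = _ := by rw [mul_assoc]
        _ = ENNReal.ofReal (|D.J| + 1) ^ (3 : ℝ) *
              ∫⁻ v in D.Bv, ENNReal.ofReal |(D.Y' v).det| * ‖G (D.Y v)‖ₑ ^ (3 : ℝ) := by
            rw [lintegral_const_mul']
            exact ENNReal.rpow_ne_top_of_nonneg (by norm_num) ENNReal.ofReal_ne_top
        _ = ENNReal.ofReal (|D.J| + 1) ^ (3 : ℝ) * ∫⁻ y in D.Y '' D.Bv, ‖G y‖ₑ ^ (3 : ℝ) := by
            rw [lintegral_image_eq_lintegral_abs_det_fderiv_mul volume hBm D.hY' D.inj]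
        _ ≤ _ := by
            gcongr
            exact Measure.restrict_le_self
    calc (∫⁻ v in D.Bv, ‖g v‖ₑ ^ (3 : ℝ)) ^ (1 / (3 : ℝ)) ≤ _ := ENNReal.rpow_le_rpow hle (by norm_num)
      _ = _ := by
        rw [ENNReal.mul_rpow_of_nonneg _ _ (by norm_num), ← ENNReal.rpow_mul]
        norm_num
  have hFe : eLpNorm (lcPull D G) 3 volume = eLpNorm g 3 (volume.restrict D.Bv) :=
    eLpNorm_indicator_eq_eLpNorm_restrict hBm
  refine ⟨⟨(aestronglyMeasurable_indicator_iff hBm).2 hgm, ?_⟩, by rw [hFe]; exact hnorm⟩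
  rw [hFe]
  exact lt_of_le_of_lt hnorm (ENNReal.mul_lt_top ENNReal.ofReal_lt_top h3.2)

theorem lc_pull_supp (D : LcData φ N) (G : E2 → ℂ) (v : E2) (hv : lcPull D G v ≠ 0) : ‖v‖ ≤ D.Kb.Rv := by
  by_contra h
  apply hv
  have : v ∉ D.Bv := fun hvB => h (D.Bv_sub v hvB)
  simp [lcPull, this]

/-- **LC-L3** -/
theorem lc_T_eq_Elam (D : LcData φ N) {R : ℝ} (hR : 1 ≤ R) {F : E2 → ℂ} (hF : ∀ y, F y ≠ 0 → y ∈ N)
    {q : ℝ × E2} (hq : q ∈ lcBox R) :
    lcT φ F q = Elam (4 * Real.pi * R) D.Φ (lcAmp D.γ) (lcPull D (lcMod φ R F))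
      ((q.1 + R) / (2 * R), (2 * R)⁻¹ • q.2) := by
  have hR0 : 0 < R := by linarith
  have hBm := D.Bv_meas
  obtain ⟨hq1, hq2⟩ := hq
  rw [mem_closedBall_zero_iff] at hq2
  unfold lcT Elam
  rw [← setIntegral_eq_integral_of_forall_compl_eq_zero (s := D.Y '' D.Bv) (fun y hy => by
    rw [D.img] at hy
    have : F y = 0 := by
      by_contra h
      exact hy (hF y h)
    rw [this, mul_zero])]
  rw [integral_image_eq_integral_abs_det_fderiv_smul volume hBm D.hY' D.inj, ← integral_indicator hBm]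
  congr 1
  funext v
  by_cases hv : v ∈ D.Bv
  · have hc : (q.1 + R) / (2 * R) ∈ Set.Icc (0 : ℝ) 1 := by
      constructor
      · apply div_nonneg _ (by positivity)
        linarith [hq1.1]
      · rw [div_le_one (by positivity)]
        linarith [hq1.2]
    have hx : ‖(2 * R)⁻¹ • q.2‖ ≤ 1 := by
      rw [norm_smul, Real.norm_of_nonneg (by positivity), inv_mul_le_iff₀ (by positivity)]
      linarith
    simp only [Set.indicator_of_mem hv, lcPull, lcAmp, if_pos (And.intro hc hx), D.γ_one v hv, D.Φ_eq _ _ v hv,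
      lcMod, Complex.real_smul, Complex.ofReal_one, mul_one, inner_smul_left]
    have e1 : Complex.exp (Complex.I * ((4 * Real.pi * R *
        ((starRingEnd ℝ) (2 * R)⁻¹ * ⟪q.2, D.Y v⟫_ℝ + (q.1 + R) / (2 * R) * φ (D.Y v)) : ℝ) : ℂ))
        = Complex.exp (2 * Real.pi * Complex.I * ((⟪q.2, D.Y v⟫_ℝ + q.1 * φ (D.Y v) : ℝ) : ℂ))
          * Complex.exp (2 * Real.pi * Complex.I * ((R * φ (D.Y v) : ℝ) : ℂ)) := by
      rw [← Complex.exp_add]
      congr 1
      have : 4 * Real.pi * R * ((starRingEnd ℝ) (2 * R)⁻¹ * ⟪q.2, D.Y v⟫_ℝ + (q.1 + R) / (2 * R) * φ (D.Y v))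
          = 2 * Real.pi * (⟪q.2, D.Y v⟫_ℝ + q.1 * φ (D.Y v)) + 2 * Real.pi * (R * φ (D.Y v)) := by
        simp only [conj_trivial]
        field_simp
        ring
      rw [this]
      push_cast
      ring
    rw [e1, Complex.exp_neg]
    have hne : Complex.exp (2 * Real.pi * Complex.I * ((R * φ (D.Y v) : ℝ) : ℂ)) ≠ 0 := Complex.exp_ne_zero _
    field_simp
  · simp [Set.indicator_of_notMem hv, lcPull]

/-- **LC-L4** -/
theorem lc_scale {R : ℝ} (hR : 0 < R) (H : ℝ × E2 → ℂ) :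
    eLpNorm (fun q : ℝ × E2 => H ((q.1 + R) / (2 * R), (2 * R)⁻¹ • q.2)) 3 volume =
      ENNReal.ofReal (2 * R) * eLpNorm H 3 volume := by
  set c : ℝ := (2 * R)⁻¹ with hc
  have hc0 : c ≠ 0 := by rw [hc]; positivity
  set w : ℝ × E2 := (R, 0) with hw
  have e : (fun q : ℝ × E2 => H ((q.1 + R) / (2 * R), (2 * R)⁻¹ • q.2))
      = (H ∘ (fun q : ℝ × E2 => c • q)) ∘ (fun q : ℝ × E2 => q + w) := by
    funext q
    simp only [Function.comp, hw, hc]
    congr 1
    ext1
    · simp only [Prod.fst_add, Prod.smul_fst, smul_eq_mul]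
      rw [div_eq_inv_mul]
    · simp
  have m1 : MeasurableEmbedding (fun q : ℝ × E2 => q + w) := (Homeomorph.addRight w).measurableEmbedding
  have m2 : MeasurableEmbedding (fun q : ℝ × E2 => c • q) := (Homeomorph.smulOfNeZero c hc0).measurableEmbedding
  have hfr : Module.finrank ℝ (ℝ × E2) = 3 := by simp
  have hH : Measure.IsAddHaarMeasure (volume : Measure (ℝ × E2)) := by
    rw [Measure.volume_eq_prod]; infer_instance
  rw [e, ← m1.eLpNorm_map_measure, map_add_right_eq_self, ← m2.eLpNorm_map_measure,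
    Measure.map_addHaar_smul _ hc0, hfr]
  have hpos : 0 < |(c ^ 3)⁻¹| := by positivity
  rw [eLpNorm_smul_measure_of_ne_zero (by simpa using hpos), smul_eq_mul]
  congr 1
  have h1 : |(c ^ 3)⁻¹| = (2 * R) ^ 3 := by
    rw [hc, abs_of_pos (by positivity)]
    field_simp
  rw [h1]
  have h2 : (1 / (3 : ENNReal)).toReal = 1 / 3 := by
    rw [ENNReal.toReal_div]; norm_num
  rw [h2, ENNReal.ofReal_rpow_of_nonneg (by positivity) (by norm_num)]
  congr 1
  rw [← Real.rpow_natCast, ← Real.rpow_mul (by positivity)]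
  norm_num

/-- **LC-L5** -/
theorem lc_mod_props (hφ : Continuous φ) (R : ℝ) {F : E2 → ℂ} (h3 : MemLp F 3 volume)
    (h1 : Integrable F volume) :
    MemLp (lcMod φ R F) 3 volume ∧ Integrable (lcMod φ R F) volume ∧
      eLpNorm (lcMod φ R F) 3 volume = eLpNorm F 3 volume := by
  have hc : Continuous fun y : E2 => Complex.exp (-(2 * Real.pi * Complex.I * ((R * φ y : ℝ) : ℂ))) := by
    fun_prop
  have hn : ∀ y : E2, ‖Complex.exp (-(2 * Real.pi * Complex.I * ((R * φ y : ℝ) : ℂ)))‖ = 1 := by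
    intro y
    have : -(2 * Real.pi * Complex.I * ((R * φ y : ℝ) : ℂ)) = ((-(2 * Real.pi * (R * φ y)) : ℝ) : ℂ) * Complex.I := by
      push_cast; ring
    rw [this, Complex.norm_exp_ofReal_mul_I]
  have he : eLpNorm (lcMod φ R F) 3 volume = eLpNorm F 3 volume := by
    apply eLpNorm_congr_norm_ae
    refine Filter.Eventually.of_forall fun y => ?_
    rw [lcMod, norm_mul, hn, one_mul]
  refine ⟨⟨hc.aestronglyMeasurable.mul h3.1, by rw [he]; exact h3.2⟩, ?_, he⟩
  exact h1.bdd_mul (c := 1) hc.aestronglyMeasurable (Filter.Eventually.of_forall fun y => (hn y).le)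

theorem lc_measurableSet_box (R : ℝ) : MeasurableSet (lcBox R) :=
  measurableSet_Icc.prod Metric.isClosed_closedBall.measurableSet

/-- glue. -/
theorem lc_local_of_data (h : OSC) (hφ : Continuous φ) (D : LcData φ N) : LocEst φ N := by
  intro ν hν
  obtain ⟨C₀, hC₀⟩ := h D.Kb D.a0_pos ν hν
  refine ⟨2 * (|C₀| * (4 * Real.pi) ^ (-1 + ν)) * (|D.J| + 1), fun R hR F h3 h1 hF => ?_⟩
  have hR0 : 0 < R := by linarith
  have hpi := Real.pi_pos
  have hlam : 2 ≤ 4 * Real.pi * R := by nlinarith [Real.pi_gt_three]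
  obtain ⟨m3, m1, me⟩ := lc_mod_props hφ R h3 h1
  obtain ⟨p3, pe⟩ := lc_pull_bound D m3 m1
  have hosc := hC₀ (4 * Real.pi * R) hlam D.Φ D.ζ D.phase (lcAmp D.γ) D.amp
    (lcPull D (lcMod φ R F)) p3 (lc_pull_supp D _)
  have hae : lcT φ F =ᵐ[volume.restrict (lcBox R)] fun q : ℝ × E2 =>
      Elam (4 * Real.pi * R) D.Φ (lcAmp D.γ) (lcPull D (lcMod φ R F))
        ((q.1 + R) / (2 * R), (2 * R)⁻¹ • q.2) :=
    (ae_restrict_iff' (lc_measurableSet_box R)).2
      (Filter.Eventually.of_forall fun q hq => lc_T_eq_Elam D hR hF hq)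
  have hJ : 0 ≤ |D.J| + 1 := by positivity
  have hc1 : 0 ≤ |C₀| * (4 * Real.pi * R) ^ (-1 + ν) := by positivity
  calc eLpNorm (lcT φ F) 3 (volume.restrict (lcBox R))
      = eLpNorm (fun q : ℝ × E2 => Elam (4 * Real.pi * R) D.Φ (lcAmp D.γ) (lcPull D (lcMod φ R F))
        ((q.1 + R) / (2 * R), (2 * R)⁻¹ • q.2)) 3 (volume.restrict (lcBox R)) := eLpNorm_congr_ae hae
    _ ≤ eLpNorm (fun q : ℝ × E2 => Elam (4 * Real.pi * R) D.Φ (lcAmp D.γ) (lcPull D (lcMod φ R F))
        ((q.1 + R) / (2 * R), (2 * R)⁻¹ • q.2)) 3 volume := eLpNorm_mono_measure _ Measure.restrict_le_self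
    _ = ENNReal.ofReal (2 * R) * eLpNorm (Elam (4 * Real.pi * R) D.Φ (lcAmp D.γ)
        (lcPull D (lcMod φ R F))) 3 volume := lc_scale hR0 _
    _ ≤ ENNReal.ofReal (2 * R) * (ENNReal.ofReal (|C₀| * (4 * Real.pi * R) ^ (-1 + ν)) *
        (ENNReal.ofReal (|D.J| + 1) * eLpNorm F 3 volume)) := by
          gcongr
          refine hosc.trans ?_
          rw [← me]
          gcongr
          exact le_abs_self _
    _ = ENNReal.ofReal (2 * R * (|C₀| * (4 * Real.pi * R) ^ (-1 + ν)) * (|D.J| + 1)) *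
        eLpNorm F 3 volume := by
          have e1 : ENNReal.ofReal (2 * R * (|C₀| * (4 * Real.pi * R) ^ (-1 + ν)) * (|D.J| + 1)) =
              ENNReal.ofReal (2 * R) * ENNReal.ofReal (|C₀| * (4 * Real.pi * R) ^ (-1 + ν)) *
                ENNReal.ofReal (|D.J| + 1) := by
            rw [ENNReal.ofReal_mul (p := 2 * R * (|C₀| * (4 * Real.pi * R) ^ (-1 + ν))) (by positivity),
              ENNReal.ofReal_mul (p := 2 * R) (by positivity)]
          rw [e1]
          simp only [mul_assoc]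
    _ = _ := by
          congr 2
          rw [Real.mul_rpow (by positivity) hR0.le, Real.rpow_add hR0, Real.rpow_neg_one]
          field_simp

end Claimed.Agent.R254.Loc
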