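import Claimed.Agent.R254.Loc.Ball
import Claimed.Agent.R254.Loc.Local
import Claimed.Agent.R254.Loc.Data

/-!
# Row 254, END254-A: THE EXIT THEOREM `loc_of_osc`      (architect helper31)   -- KEEP

`OSC` (BR Thm 12.1, `R255/Osc/Contract.lean`) ⟹ helper65's contract `R254.LocEst φ y₀ ρ` (`R254/Defs.lean`) near every elliptic point.
Chain: `Hess`, `Cut` (globalise `φ`), `Inv` (global inverse of `-∇ψ`, Legendre transform), `Phase` (class of `OSC`) ⟹ `Data.lc_data_exists`;
`Local.lc_local_of_data` (parabolic-free rescaling `λ = 4πR`); `Ball.lc_ball_of_locEst` (change of notation).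
-/

set_option autoImplicit false

namespace Claimed.Agent.R254.Loc

open MeasureTheory Claimed.Agent.R255.Osc
open scoped ContDiff

theorem loc_of_osc (h : OSC) {φ : E2 → ℝ} (hφ : ContDiff ℝ ∞ φ) (y₀ : E2)
    (hpos : ∀ v : E2, v ≠ 0 → 0 < iteratedFDeriv ℝ 2 φ y₀ (fun _ => v)) :
    ∃ ρ : ℝ, 0 < ρ ∧ Claimed.Agent.R254.LocEst φ y₀ ρ := by
  obtain ⟨r, hr, ⟨D⟩⟩ := lc_data_exists hφ y₀ hpos
  exact ⟨r / 2, by positivity, lc_ball_of_locEst (lc_local_of_data h hφ.continuous D)
    (Metric.closedBall_subset_ball (by linarith))⟩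

end Claimed.Agent.R254.Loc
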